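import Mathlib

/-!
# P322 (Courtade-Kumar): definitions, the semigroup on the cube and tensorisation

`Cube n` is `Fin n → Bool`, `sg true = 1`, `sg false = -1`.
-/

open Real

namespace CK

/-- The discrete cube. -/
abbrev Cube (n : ℕ) := Fin n → Bool

/-- The sign of a bit. -/
def sg (b : Bool) : ℝ := if b then 1 else -1

/-- The uniform average over the cube. -/
noncomputable def av {n : ℕ} (g : Cube n → ℝ) : ℝ := (∑ x, g x) / 2 ^ n

/-- Flip the bit `i`. -/
def flip {n : ℕ} (i : Fin n) (x : Cube n) : Cube n := Function.update x i (!x i)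

/-- `artanh`. -/
noncomputable def A (t : ℝ) : ℝ := (log (1 + t) - log (1 - t)) / 2

/-- The binary entropy of `(1+t)/2` (in nats). -/
noncomputable def H (t : ℝ) : ℝ := binEntropy ((1 + t) / 2)

/-- The entropy production. -/
noncomputable def Phi {n : ℕ} (g : Cube n → ℝ) : ℝ :=
  av (fun x => A (g x) * ∑ i, (g x - g (flip i x)) / 2)

/-- The two-point cost. -/
noncomputable def cc (s t : ℝ) : ℝ := (s - t) * (A s - A t) / 4

/-! ## Averages -/

theorem av_congr {n : ℕ} {g h : Cube n → ℝ} (H : ∀ x, g x = h x) : av g = av h := by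
  unfold av; simp [H]

theorem av_add {n : ℕ} (g h : Cube n → ℝ) : av (fun x => g x + h x) = av g + av h := by
  unfold av; rw [Finset.sum_add_distrib, add_div]

theorem av_smul {n : ℕ} (c : ℝ) (g : Cube n → ℝ) : av (fun x => c * g x) = c * av g := by
  unfold av; rw [← Finset.mul_sum, mul_div_assoc]

theorem av_const {n : ℕ} (c : ℝ) : av (fun _ : Cube n => c) = c := by
  unfold av; simp

theorem av_zero (g : Cube 0 → ℝ) : av g = g default := by
  unfold av
  rw [Fintype.sum_subsingleton _ default]; simp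

theorem sum_cube_succ {n : ℕ} (g : Cube (n + 1) → ℝ) :
    ∑ x, g x = (∑ x : Cube n, g (Fin.cons true x)) + ∑ x : Cube n, g (Fin.cons false x) := by
  rw [← (Fin.consEquiv (fun _ : Fin (n + 1) => Bool)).sum_comp g, Fintype.sum_prod_type]
  simp [Fin.consEquiv]

theorem av_succ {n : ℕ} (g : Cube (n + 1) → ℝ) :
    av g = (av (fun x : Cube n => g (Fin.cons true x)) +
      av (fun x : Cube n => g (Fin.cons false x))) / 2 := by
  unfold av
  rw [sum_cube_succ, pow_succ]
  field_simp

theorem av_mono {n : ℕ} {g h : Cube n → ℝ} (H : ∀ x, g x ≤ h x) : av g ≤ av h := by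
  unfold av
  gcongr
  exact H _

theorem flip_cons_zero {n : ℕ} (b : Bool) (x : Cube n) :
    flip 0 (Fin.cons b x : Cube (n + 1)) = Fin.cons (!b) x := by
  unfold flip
  rw [Fin.cons_zero]
  exact Fin.update_cons_zero (α := fun _ => Bool) b x (!b)

theorem flip_cons_succ {n : ℕ} (b : Bool) (x : Cube n) (i : Fin n) :
    flip i.succ (Fin.cons b x : Cube (n + 1)) = Fin.cons b (flip i x) := by
  unfold flip
  rw [Fin.cons_succ]
  exact (Fin.cons_update (α := fun _ => Bool) b x i (!x i)).symm

theorem Phi_succ {n : ℕ} (g : Cube (n + 1) → ℝ) :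
    Phi g = (Phi (fun x : Cube n => g (Fin.cons true x)) +
      Phi (fun x : Cube n => g (Fin.cons false x))) / 2
      + av (fun x : Cube n => cc (g (Fin.cons true x)) (g (Fin.cons false x))) := by
  unfold Phi
  rw [av_succ]
  have h : ∀ (b : Bool) (x : Cube n), A (g (Fin.cons b x)) *
      ∑ i : Fin (n + 1), (g (Fin.cons b x) - g (flip i (Fin.cons b x))) / 2
      = A (g (Fin.cons b x)) * ∑ i : Fin n, (g (Fin.cons b x) - g (Fin.cons b (flip i x))) / 2
        + A (g (Fin.cons b x)) * ((g (Fin.cons b x) - g (Fin.cons (!b) x)) / 2) := by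
    intro b x
    rw [Fin.sum_univ_succ, flip_cons_zero]
    simp only [flip_cons_succ]
    ring
  simp only [h, av_add]
  have h2 : av (fun x : Cube n => cc (g (Fin.cons true x)) (g (Fin.cons false x)))
      = (av (fun x : Cube n => A (g (Fin.cons true x)) *
          ((g (Fin.cons true x) - g (Fin.cons (!true) x)) / 2)) +
        av (fun x : Cube n => A (g (Fin.cons false x)) *
          ((g (Fin.cons false x) - g (Fin.cons (!false) x)) / 2))) / 2 := by
    rw [← av_add]
    have h3 : ∀ x : Cube n, cc (g (Fin.cons true x)) (g (Fin.cons false x))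
        = (1 / 2) * (A (g (Fin.cons true x)) *
          ((g (Fin.cons true x) - g (Fin.cons (!true) x)) / 2) + A (g (Fin.cons false x)) *
          ((g (Fin.cons false x) - g (Fin.cons (!false) x)) / 2)) := by
      intro x
      simp only [Bool.not_true, Bool.not_false, cc]
      ring
    rw [av_congr h3, av_smul]
    ring
  rw [h2]
  ring

/-- The main inequality for a Bellman function `B`. -/
def MI (B : ℝ → ℝ → ℝ) : Prop :=
  ∀ (n : ℕ) (s t : Cube n → ℝ), (∀ x, s x ∈ Set.Ioo (-1 : ℝ) 1) → (∀ x, t x ∈ Set.Ioo (-1 : ℝ) 1) →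
    B ((av s + av t) / 2) ((av (fun x => H (s x)) + av (fun x => H (t x))) / 2)
      ≤ (B (av s) (av (fun x => H (s x))) + B (av t) (av (fun x => H (t x)))) / 2
        + av (fun x => cc (s x) (t x))

/-- Tensorisation. -/
theorem tens (B : ℝ → ℝ → ℝ) (h0 : ∀ m ∈ Set.Ioo (-1 : ℝ) 1, B m (H m) ≤ 0) (hMI : MI B) :
    ∀ (n : ℕ) (g : Cube n → ℝ), (∀ x, g x ∈ Set.Ioo (-1 : ℝ) 1) →
      B (av g) (av (fun x => H (g x))) ≤ Phi g := by
  intro n
  induction n with
  | zero =>
    intro g hg
    rw [av_zero, av_zero]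
    refine (h0 _ (hg _)).trans (le_of_eq ?_)
    unfold Phi
    rw [av_zero]; simp
  | succ n ih =>
    intro g hg
    rw [Phi_succ, av_succ g, av_succ (fun x => H (g x))]
    have h1 := ih (fun x => g (Fin.cons true x)) (fun x => hg _)
    have h2 := ih (fun x => g (Fin.cons false x)) (fun x => hg _)
    have h3 := hMI n (fun x => g (Fin.cons true x)) (fun x => g (Fin.cons false x))
      (fun x => hg _) (fun x => hg _)
    linarith

end CK
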