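import Vale.Agent.H9.CK.Base

/-!
# P322: the noise semigroup and the ODE comparison
-/

open Real

namespace CK

theorem sg_sq (b : Bool) : sg b * sg b = 1 := by cases b <;> simp [sg]

theorem sg_not (b : Bool) : sg (!b) = -sg b := by cases b <;> simp [sg]

/-- The noise kernel. -/
noncomputable def K {n : ℕ} (ρ : ℝ) (x y : Cube n) : ℝ := ∏ i, (1 + ρ * (sg (x i) * sg (y i))) / 2

/-- The noise operator. -/
noncomputable def T {n : ℕ} (ρ : ℝ) (F : Cube n → ℝ) (y : Cube n) : ℝ := ∑ x, F x * K ρ x y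

/-- `log 2 - H`. -/
noncomputable def J (t : ℝ) : ℝ := log 2 - H t

theorem K_comm {n : ℕ} (ρ : ℝ) (x y : Cube n) : K ρ x y = K ρ y x := by
  unfold K; refine Finset.prod_congr rfl fun i _ => ?_; ring

theorem fac_pos {ρ : ℝ} (h0 : 0 ≤ ρ) (h1 : ρ < 1) (a b : Bool) :
    0 < (1 + ρ * (sg a * sg b)) / 2 := by
  cases a <;> cases b <;> simp [sg] <;> linarith

theorem K_pos {n : ℕ} {ρ : ℝ} (h0 : 0 ≤ ρ) (h1 : ρ < 1) (x y : Cube n) : 0 < K ρ x y := by
  unfold K; exact Finset.prod_pos fun i _ => fac_pos h0 h1 _ _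

theorem fac_nonneg {ρ : ℝ} (h0 : 0 ≤ ρ) (h1 : ρ ≤ 1) (a b : Bool) :
    0 ≤ (1 + ρ * (sg a * sg b)) / 2 := by
  cases a <;> cases b <;> simp [sg] <;> linarith

theorem K_nonneg {n : ℕ} {ρ : ℝ} (h0 : 0 ≤ ρ) (h1 : ρ ≤ 1) (x y : Cube n) : 0 ≤ K ρ x y := by
  unfold K; exact Finset.prod_nonneg fun i _ => fac_nonneg h0 h1 _ _

theorem sum_K {n : ℕ} (ρ : ℝ) (y : Cube n) : ∑ x, K ρ x y = 1 := by
  unfold K
  have h := Finset.prod_univ_sum (fun _ : Fin n => (Finset.univ : Finset Bool))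
    (fun i b => (1 + ρ * (sg b * sg (y i))) / 2)
  rw [Fintype.piFinset_univ] at h
  rw [← h]
  have h2 : ∀ b : Bool, (1 + ρ * (sg true * sg b)) / 2 + (1 + ρ * (sg false * sg b)) / 2 = 1 := by
    intro b
    cases b <;> simp [sg] <;> ring
  refine Finset.prod_eq_one fun i _ => ?_
  rw [Fintype.sum_bool]
  exact h2 (y i)

theorem sum_K' {n : ℕ} (ρ : ℝ) (x : Cube n) : ∑ y, K ρ x y = 1 := by
  simp_rw [K_comm ρ x]; exact sum_K ρ x

theorem av_T {n : ℕ} (ρ : ℝ) (F : Cube n → ℝ) : av (T ρ F) = av F := by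
  unfold av T
  rw [Finset.sum_comm]
  simp_rw [← Finset.mul_sum, sum_K', mul_one]

theorem T_zero {n : ℕ} (F : Cube n → ℝ) (y : Cube n) : T 0 F y = av F := by
  unfold T K av
  simp only [zero_mul, add_zero]
  rw [Finset.prod_const, Finset.card_univ, Fintype.card_fin, ← Finset.sum_mul]
  rw [div_pow, one_pow]; ring

theorem T_mem {n : ℕ} {ρ : ℝ} (h0 : 0 ≤ ρ) (h1 : ρ < 1) (F : Cube n → ℝ)
    (hF : ∀ x, F x = 1 ∨ F x = -1) (hp : ∃ x, F x = 1) (hm : ∃ x, F x = -1) (y : Cube n) :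
    T ρ F y ∈ Set.Ioo (-1 : ℝ) 1 := by
  obtain ⟨xp, hxp⟩ := hp
  obtain ⟨xm, hxm⟩ := hm
  constructor
  · have h : 0 < ∑ x, (1 + F x) * K ρ x y := by
      refine Finset.sum_pos' (fun x _ => ?_) ⟨xp, Finset.mem_univ _, ?_⟩
      · refine mul_nonneg ?_ (K_pos h0 h1 x y).le
        rcases hF x with h | h <;> rw [h] <;> norm_num
      · rw [hxp]; have := K_pos h0 h1 xp y; linarith
    simp_rw [add_mul, one_mul] at h
    rw [Finset.sum_add_distrib, sum_K] at h
    unfold T; linarith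
  · have h : 0 < ∑ x, (1 - F x) * K ρ x y := by
      refine Finset.sum_pos' (fun x _ => ?_) ⟨xm, Finset.mem_univ _, ?_⟩
      · refine mul_nonneg ?_ (K_pos h0 h1 x y).le
        rcases hF x with h | h <;> rw [h] <;> norm_num
      · rw [hxm]; have := K_pos h0 h1 xm y; linarith
    simp_rw [sub_mul, one_mul] at h
    rw [Finset.sum_sub_distrib, sum_K] at h
    unfold T; linarith

theorem T_mem_Icc {n : ℕ} {ρ : ℝ} (h0 : 0 ≤ ρ) (h1 : ρ ≤ 1) (F : Cube n → ℝ)
    (hF : ∀ x, F x = 1 ∨ F x = -1) (y : Cube n) :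
    T ρ F y ∈ Set.Icc (-1 : ℝ) 1 := by
  constructor
  · have h : 0 ≤ ∑ x, (1 + F x) * K ρ x y := by
      refine Finset.sum_nonneg (fun x _ => ?_)
      refine mul_nonneg ?_ (K_nonneg h0 h1 x y)
      rcases hF x with h | h <;> rw [h] <;> norm_num
    simp_rw [add_mul, one_mul] at h
    rw [Finset.sum_add_distrib, sum_K] at h
    unfold T; linarith
  · have h : 0 ≤ ∑ x, (1 - F x) * K ρ x y := by
      refine Finset.sum_nonneg (fun x _ => ?_)
      refine mul_nonneg ?_ (K_nonneg h0 h1 x y)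
      rcases hF x with h | h <;> rw [h] <;> norm_num
    simp_rw [sub_mul, one_mul] at h
    rw [Finset.sum_sub_distrib, sum_K] at h
    unfold T; linarith

/-! ## Derivatives -/

theorem K_flip {n : ℕ} (ρ : ℝ) (x y : Cube n) (i : Fin n) :
    K ρ x (flip i y) = (1 - ρ * (sg (x i) * sg (y i))) / 2 *
      ∏ j ∈ Finset.univ.erase i, (1 + ρ * (sg (x j) * sg (y j))) / 2 := by
  unfold K
  rw [← Finset.mul_prod_erase Finset.univ _ (Finset.mem_univ i)]
  congr 1
  · unfold flip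
    rw [Function.update_self, sg_not]; ring
  · refine Finset.prod_congr rfl fun j hj => ?_
    unfold flip
    rw [Function.update_of_ne (Finset.ne_of_mem_erase hj)]

theorem K_split {n : ℕ} (ρ : ℝ) (x y : Cube n) (i : Fin n) :
    K ρ x y = (1 + ρ * (sg (x i) * sg (y i))) / 2 *
      ∏ j ∈ Finset.univ.erase i, (1 + ρ * (sg (x j) * sg (y j))) / 2 := by
  unfold K
  rw [← Finset.mul_prod_erase Finset.univ _ (Finset.mem_univ i)]

theorem hasDerivAt_K {n : ℕ} {ρ : ℝ} (hρ : ρ ≠ 0) (x y : Cube n) :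
    HasDerivAt (fun ρ => K ρ x y) ((∑ i, (K ρ x y - K ρ x (flip i y)) / 2) / ρ) ρ := by
  have h : ∀ i ∈ (Finset.univ : Finset (Fin n)),
      HasDerivAt (fun ρ : ℝ => (1 + ρ * (sg (x i) * sg (y i))) / 2) (sg (x i) * sg (y i) / 2) ρ := by
    intro i _
    have h1 : HasDerivAt (fun ρ : ℝ => ρ * (sg (x i) * sg (y i))) (1 * (sg (x i) * sg (y i))) ρ :=
      (hasDerivAt_id ρ).mul_const _
    rw [one_mul] at h1
    exact (h1.const_add 1).div_const 2
  have h2 := HasDerivAt.fun_finsetProd h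
  refine h2.congr_deriv ?_
  rw [Finset.sum_div]
  refine Finset.sum_congr rfl fun i _ => ?_
  rw [K_flip, K_split ρ x y i, smul_eq_mul]
  field_simp
  ring

theorem hasDerivAt_T {n : ℕ} {ρ : ℝ} (hρ : ρ ≠ 0) (F : Cube n → ℝ) (y : Cube n) :
    HasDerivAt (fun ρ => T ρ F y) ((∑ i, (T ρ F y - T ρ F (flip i y)) / 2) / ρ) ρ := by
  unfold T
  have h : ∀ x ∈ (Finset.univ : Finset (Cube n)), HasDerivAt (fun ρ => F x * K ρ x y)
      (F x * ((∑ i, (K ρ x y - K ρ x (flip i y)) / 2) / ρ)) ρ :=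
    fun x _ => (hasDerivAt_K hρ x y).const_mul (F x)
  have h2 := HasDerivAt.fun_sum h
  refine h2.congr_deriv ?_
  rw [Finset.sum_div]
  have h3 : ∀ i : Fin n, ((∑ x, F x * K ρ x y) - ∑ x, F x * K ρ x (flip i y)) / 2 / ρ
      = ∑ x, F x * ((K ρ x y - K ρ x (flip i y)) / 2 / ρ) := by
    intro i
    rw [← Finset.sum_sub_distrib, Finset.sum_div, Finset.sum_div]
    refine Finset.sum_congr rfl fun x _ => ?_
    ring
  simp_rw [h3, Finset.sum_div]
  rw [Finset.sum_comm]
  refine Finset.sum_congr rfl fun x _ => ?_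
  rw [Finset.mul_sum]

theorem hasDerivAt_H {t : ℝ} (h : t ∈ Set.Ioo (-1 : ℝ) 1) : HasDerivAt H (-A t) t := by
  obtain ⟨h1, h2⟩ := h
  have h3 : HasDerivAt (fun t : ℝ => (1 + t) / 2) (1 / 2) t :=
    ((hasDerivAt_id t).const_add 1).div_const 2
  have h4 := hasDerivAt_binEntropy (p := (1 + t) / 2) (by
    intro h; linarith) (by intro h; linarith)
  have h5 := h4.comp t h3
  refine h5.congr_deriv ?_
  have e1 : 1 - (1 + t) / 2 = (1 - t) / 2 := by ring
  rw [e1, Real.log_div (by linarith) (by norm_num), Real.log_div (by linarith) (by norm_num)]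
  unfold A; ring

theorem continuous_H : Continuous H := by
  unfold H; fun_prop

theorem hasDerivAt_avH {n : ℕ} {ρ : ℝ} (hρ : ρ ≠ 0) (F : Cube n → ℝ)
    (hT : ∀ y, T ρ F y ∈ Set.Ioo (-1 : ℝ) 1) :
    HasDerivAt (fun ρ => av (fun y => H (T ρ F y))) (-(Phi (T ρ F)) / ρ) ρ := by
  unfold av
  have h : ∀ y ∈ (Finset.univ : Finset (Cube n)), HasDerivAt (fun ρ => H (T ρ F y))
      (-A (T ρ F y) * ((∑ i, (T ρ F y - T ρ F (flip i y)) / 2) / ρ)) ρ := by
    intro y _
    exact HasDerivAt.comp (h₂ := H) ρ (hasDerivAt_H (hT y)) (hasDerivAt_T hρ F y)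
  have h2 := (HasDerivAt.fun_sum h).div_const (2 ^ n)
  refine h2.congr_deriv ?_
  unfold Phi av
  have h3 : ∀ y : Cube n, -A (T ρ F y) * ((∑ i, (T ρ F y - T ρ F (flip i y)) / 2) / ρ)
      = -(1 / ρ) * (A (T ρ F y) * ∑ i, (T ρ F y - T ρ F (flip i y)) / 2) := by
    intro y; ring
  simp_rw [h3]
  rw [← Finset.mul_sum]
  ring

theorem H_pos {t : ℝ} (h : t ∈ Set.Ioo (-1 : ℝ) 1) : 0 < H t := by
  unfold H; exact binEntropy_pos (by linarith [h.1]) (by linarith [h.2])

theorem H_nonneg {t : ℝ} (h : t ∈ Set.Icc (-1 : ℝ) 1) : 0 ≤ H t := by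
  unfold H; exact binEntropy_nonneg (by linarith [h.1]) (by linarith [h.2])

theorem H_le (t : ℝ) : H t ≤ log 2 := by unfold H; exact binEntropy_le_log_two

theorem H_one : H 1 = 0 := by unfold H; norm_num

theorem H_neg_one : H (-1) = 0 := by unfold H; norm_num

theorem H_neg (t : ℝ) : H (-t) = H t := by
  unfold H
  rw [← binEntropy_one_sub]; congr 1; ring

theorem J_one : J 1 = log 2 := by unfold J; rw [H_one]; ring

theorem J_nonneg (t : ℝ) : 0 ≤ J t := by unfold J; have := H_le t; linarith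

theorem hasDerivAt_J {t : ℝ} (h : t ∈ Set.Ioo (-1 : ℝ) 1) : HasDerivAt J (A t) t := by
  have := (hasDerivAt_H h).const_sub (log 2)
  rw [neg_neg] at this
  exact this

theorem continuous_J : Continuous J := by
  unfold J; exact continuous_const.sub continuous_H

theorem A_pos {t : ℝ} (h0 : 0 < t) (h1 : t < 1) : 0 < A t := by
  unfold A
  have := Real.log_lt_log (by linarith : (0 : ℝ) < 1 - t) (by linarith : 1 - t < 1 + t)
  linarith

/-- The nonlinear log-Sobolev inequality for functions with mean `m`. -/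
def StarAt (m : ℝ) : Prop :=
  ∀ (n : ℕ) (g : Cube n → ℝ), (∀ x, g x ∈ Set.Ioo (-1 : ℝ) 1) → av g = m →
    ∀ θ ∈ Set.Ioo (0 : ℝ) 1, J θ = H m - av (fun x => H (g x)) → θ * A θ ≤ Phi g

/-- The ODE comparison: `StarAt (av F)` implies the Courtade-Kumar inequality for `F`
(in nats, `ρ ∈ [0,1]`). -/
theorem compare {n : ℕ} (F : Cube n → ℝ) (hF : ∀ x, F x = 1 ∨ F x = -1) (hS : StarAt (av F))
    {ρ : ℝ} (h0 : 0 ≤ ρ) (h1 : ρ ≤ 1) :
    H (av F) - av (fun y => H (T ρ F y)) ≤ J ρ := by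
  -- trivial bound
  have htriv : ∀ ρ, 0 ≤ ρ → ρ ≤ 1 → 0 ≤ av (fun y => H (T ρ F y)) := by
    intro ρ h0 h1
    unfold av
    exact div_nonneg (Finset.sum_nonneg fun y _ => H_nonneg (T_mem_Icc h0 h1 F hF y))
      (by positivity)
  rcases eq_or_lt_of_le h1 with h1 | h1
  · subst h1
    rw [J_one]
    have := htriv 1 h0 le_rfl
    have := H_le (av F)
    linarith
  rcases eq_or_lt_of_le h0 with h0 | h0
  · subst h0
    simp_rw [T_zero]
    rw [av_const, sub_self]
    exact J_nonneg 0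
  -- constant functions
  by_cases hp : ∃ x, F x = 1
  swap
  · have hc : ∀ x, F x = -1 := fun x => (hF x).resolve_left fun h => hp ⟨x, h⟩
    have : av F = -1 := by rw [av_congr hc, av_const]
    rw [this, H_neg_one]
    have := htriv ρ h0.le h1.le
    have := J_nonneg ρ
    linarith
  by_cases hm : ∃ x, F x = -1
  swap
  · have hc : ∀ x, F x = 1 := fun x => (hF x).resolve_right fun h => hm ⟨x, h⟩
    have : av F = 1 := by rw [av_congr hc, av_const]
    rw [this, H_one]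
    have := htriv ρ h0.le h1.le
    have := J_nonneg ρ
    linarith
  by_contra hcon
  push Not at hcon
  set I : ℝ → ℝ := fun ρ => H (av F) - av (fun y => H (T ρ F y)) with hI
  -- choose the shift
  have hcont : Filter.Tendsto (fun d : ℝ => J (ρ + d)) (nhdsWithin 0 (Set.Ioi 0)) (nhds (J ρ)) := by
    have h : Continuous (fun d : ℝ => J (ρ + d)) := continuous_J.comp (continuous_const.add continuous_id)
    have h2 := h.tendsto 0
    simp only [add_zero] at h2
    exact h2.mono_left nhdsWithin_le_nhds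
  have hev : ∀ᶠ d in nhdsWithin (0 : ℝ) (Set.Ioi 0), J (ρ + d) < I ρ :=
    hcont.eventually_lt_const hcon
  have hev2 : ∀ᶠ d in nhdsWithin (0 : ℝ) (Set.Ioi 0), d < 1 - ρ := by
    refine nhdsWithin_le_nhds ?_
    exact Iio_mem_nhds (by linarith)
  obtain ⟨d, ⟨hd1, hd2⟩, hd0⟩ := ((hev.and hev2).and self_mem_nhdsWithin).exists
  have hd0 : 0 < d := hd0
  have hTm : ∀ r, 0 < r → r < 1 → ∀ y, T r F y ∈ Set.Ioo (-1 : ℝ) 1 :=
    fun r hr0 hr1 y => T_mem hr0.le hr1 F hF hp hm y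
  have hId : ∀ r, 0 < r → r < 1 → HasDerivAt I (Phi (T r F) / r) r := by
    intro r hr0 hr1
    have := (hasDerivAt_avH hr0.ne' F (hTm r hr0 hr1)).const_sub (H (av F))
    refine this.congr_deriv ?_
    ring
  have hmain := image_le_of_deriv_right_lt_deriv_boundary' (a := ρ) (b := 1 - d)
    (f := fun r => J (r + d)) (f' := fun r => A (r + d)) (B := I)
    (B' := fun r => Phi (T r F) / r)
    (continuous_J.comp (continuous_id.add continuous_const)).continuousOn
    (by
      intro r hr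
      have h2 : HasDerivAt (fun r : ℝ => r + d) 1 r := (hasDerivAt_id r).add_const d
      have h3 := (hasDerivAt_J (t := r + d) ⟨by linarith [hr.1], by linarith [hr.2]⟩).comp r h2
      rw [mul_one] at h3
      exact h3.hasDerivWithinAt)
    hd1.le
    (by
      intro r hr
      exact (hId r (by linarith [hr.1]) (by linarith [hr.2])).continuousAt.continuousWithinAt)
    (by
      intro r hr
      exact (hId r (by linarith [hr.1]) (by linarith [hr.2])).hasDerivWithinAt)
    (by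
      intro r hr hc
      have hr0 : 0 < r := by linarith [hr.1]
      have hr1 : r < 1 := by linarith [hr.2]
      have hθ : r + d ∈ Set.Ioo (0 : ℝ) 1 := ⟨by linarith, by linarith [hr.2]⟩
      have hs := hS n (T r F) (hTm r hr0 hr1) (av_T r F) (r + d) hθ hc
      have hA := A_pos hθ.1 hθ.2
      rw [lt_div_iff₀ hr0]
      nlinarith)
  have hend : J ((1 - d) + d) ≤ I (1 - d) := hmain (x := 1 - d) ⟨by linarith, le_rfl⟩
  rw [sub_add_cancel, J_one] at hend
  have hpos : 0 < av (fun y => H (T (1 - d) F y)) := by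
    unfold av
    refine div_pos (Finset.sum_pos (fun y _ => H_pos (hTm (1 - d) (by linarith) (by linarith) y))
      Finset.univ_nonempty) (by positivity)
  have hle := H_le (av F)
  change log 2 ≤ H (av F) - av (fun y => H (T (1 - d) F y)) at hend
  linarith

end CK
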