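import Vale.Agent.H9.CK.Info
import Vale.Agent.H29.CK.Defs

/-!
# P322: assembly of the main inequality from (C), (D), (i), (ii)
-/

open Real Set

namespace CK

/-- (C) tangent planes. -/
def HypC : Prop := ∀ M1 D1 : ℝ, 0 ≤ M1 → 0 < D1 → M1 + D1 < 1 →
  ∃ al be ga : ℝ, 0 < ga ∧ al ≤ 0 ∧ 0 ≤ be ∧ (M1 = 0 → al = 0) ∧
    al * (1 - M1) + be * D1 = cc (M1 + D1) (M1 - D1) + ga * Ht M1 D1 ∧
    ∀ M D : ℝ, 0 ≤ M → 0 ≤ D → M + D < 1 →
      al * (1 - M) + be * D ≤ cc (M + D) (M - D) + ga * Ht M D

/-- (ii) monotonicity in `m`. -/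
def HypII : Prop := ∀ m m' e x : ℝ, 0 ≤ m → m ≤ m' → 0 ≤ e → m' + e < 1 → 0 < x →
  Gm m e x ≤ Gm m' e x

/-- (i) star property. -/
def HypI : Prop := ∀ m e h w : ℝ, 0 ≤ m → 0 ≤ e → m + e < 1 → 0 < h → 0 < w → w ≤ 1 →
  Gm (1 - w * (1 - m)) (w * e) (w * h) ≤ w * Gm m e h

/-- (D) deterministic laws. -/
def HypD : Prop := ∀ m e : ℝ, 0 ≤ m → 0 ≤ e → m + e < 1 →
  Gm m e (Ht m e) ≤ cc (m + e) (m - e)

theorem A_neg (t : ℝ) : A (-t) = -A t := by
  unfold A
  rw [← sub_eq_add_neg, sub_neg_eq_add]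
  ring

theorem cc_even_left (M D : ℝ) : cc (-M + D) (-M - D) = cc (M + D) (M - D) := by
  unfold cc
  have e1 : -M + D = -(M - D) := by ring
  have e2 : -M - D = -(M + D) := by ring
  rw [e1, e2, A_neg, A_neg]; ring

theorem cc_even_right (M D : ℝ) : cc (M + -D) (M - -D) = cc (M + D) (M - D) := by
  unfold cc
  rw [← sub_eq_add_neg, sub_neg_eq_add]; ring

theorem Ht_even_left (M D : ℝ) : Ht (-M) D = Ht M D := by
  unfold Ht
  have e1 : -M + D = -(M - D) := by ring
  have e2 : -M - D = -(M + D) := by ring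
  rw [e1, e2, H_neg, H_neg, add_comm]

theorem Ht_even_right (M D : ℝ) : Ht M (-D) = Ht M D := by
  unfold Ht
  rw [← sub_eq_add_neg, sub_neg_eq_add, add_comm]

theorem cc_abs (M D : ℝ) : cc (|M| + |D|) (|M| - |D|) = cc (M + D) (M - D) := by
  rcases abs_choice M with h | h <;> rcases abs_choice D with h' | h' <;> rw [h, h']
  · exact cc_even_right M D
  · exact cc_even_left M D
  · rw [cc_even_right, cc_even_left]

theorem Ht_abs (M D : ℝ) : Ht |M| |D| = Ht M D := by
  rcases abs_choice M with h | h <;> rcases abs_choice D with h' | h' <;> rw [h, h']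
  · exact Ht_even_right M D
  · exact Ht_even_left M D
  · rw [Ht_even_right, Ht_even_left]

theorem Gm_abs (M D x : ℝ) : Gm |M| |D| x = Gm M D x := by
  rcases abs_choice M with h | h <;> rcases abs_choice D with h' | h' <;> rw [h, h']
  · exact Gm_neg_right M D x
  · exact Gm_neg_left M D x
  · rw [Gm_neg_right, Gm_neg_left]

theorem abs_add_lt {s t : ℝ} (hs : s ∈ Ioo (-1 : ℝ) 1) (ht : t ∈ Ioo (-1 : ℝ) 1) :
    |(s + t) / 2| + |(s - t) / 2| < 1 := by
  obtain ⟨a, b⟩ := hs
  obtain ⟨c, d⟩ := ht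
  rcases abs_choice ((s + t) / 2) with h | h <;> rcases abs_choice ((s - t) / 2) with h' | h' <;>
    rw [h, h'] <;> linarith

theorem A_mono {s t : ℝ} (hs : s ∈ Ioo (-1 : ℝ) 1) (ht : t ∈ Ioo (-1 : ℝ) 1) (h : s ≤ t) :
    A s ≤ A t := by
  unfold A
  have h1 := Real.log_le_log (by linarith [hs.1] : 0 < 1 + s) (by linarith : 1 + s ≤ 1 + t)
  have h2 := Real.log_le_log (by linarith [ht.2] : 0 < 1 - t) (by linarith : 1 - t ≤ 1 - s)
  linarith

theorem cc_nonneg {s t : ℝ} (hs : s ∈ Ioo (-1 : ℝ) 1) (ht : t ∈ Ioo (-1 : ℝ) 1) : 0 ≤ cc s t := by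
  unfold cc
  rcases le_total s t with h | h
  · have := A_mono hs ht h
    have h2 : 0 ≤ (t - s) * (A t - A s) := mul_nonneg (by linarith) (by linarith)
    have h3 : (s - t) * (A s - A t) = (t - s) * (A t - A s) := by ring
    rw [h3]; linarith
  · have := A_mono ht hs h
    have h2 : 0 ≤ (s - t) * (A s - A t) := mul_nonneg (by linarith) (by linarith)
    linarith

theorem concaveOn_H : ConcaveOn ℝ (Icc (-1 : ℝ) 1) H := by
  have h := strictConcave_binEntropy.concaveOn
  have h2 := h.comp_affineMap (AffineMap.lineMap (1 / 2 : ℝ) (1 : ℝ))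
  refine (h2.subset ?_ (convex_Icc _ _)).congr ?_
  · intro x hx
    simp only [mem_preimage, AffineMap.lineMap_apply, vsub_eq_sub, vadd_eq_add, smul_eq_mul, mem_Icc]
    constructor <;> nlinarith [hx.1, hx.2]
  · intro x _
    simp only [Function.comp, AffineMap.lineMap_apply, vsub_eq_sub, vadd_eq_add, smul_eq_mul, H]
    congr 1; ring

theorem av_H_le {n : ℕ} (g : Cube n → ℝ) (hg : ∀ x, g x ∈ Ioo (-1 : ℝ) 1) :
    av (fun x => H (g x)) ≤ H (av g) := by
  have h := concaveOn_H.le_map_sum (t := (Finset.univ : Finset (Cube n)))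
    (w := fun _ => (1 : ℝ) / 2 ^ n) (p := g) (fun _ _ => by positivity)
    (by
      rw [Finset.sum_const, Finset.card_univ, Fintype.card_fun, Fintype.card_bool,
        Fintype.card_fin, nsmul_eq_mul]
      push_cast
      field_simp)
    (fun x _ => Ioo_subset_Icc_self (hg x))
  unfold av
  simp only [smul_eq_mul] at h
  rw [← Finset.mul_sum, ← Finset.mul_sum] at h
  rw [div_eq_inv_mul, div_eq_inv_mul, ← one_div]
  exact h

theorem av_Ioo {n : ℕ} (g : Cube n → ℝ) (hg : ∀ x, g x ∈ Ioo (-1 : ℝ) 1) :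
    av g ∈ Ioo (-1 : ℝ) 1 := by
  have hc : (0 : ℝ) < 2 ^ n := by positivity
  have hcard : ∑ _x : Cube n, (1 : ℝ) = 2 ^ n := by
    rw [Finset.sum_const, Finset.card_univ, Fintype.card_fun, Fintype.card_bool,
      Fintype.card_fin, nsmul_eq_mul]
    push_cast; ring
  unfold av
  constructor
  · rw [lt_div_iff₀ hc]
    have := Finset.sum_lt_sum_of_nonempty (s := (Finset.univ : Finset (Cube n)))
      Finset.univ_nonempty (fun x _ => (hg x).1)
    rw [Finset.sum_neg_distrib, hcard] at this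
    linarith
  · rw [div_lt_iff₀ hc]
    have := Finset.sum_lt_sum_of_nonempty (s := (Finset.univ : Finset (Cube n)))
      Finset.univ_nonempty (fun x _ => (hg x).2)
    rw [hcard] at this
    linarith

/-- the law step: average of a tangent plane. -/
theorem law_step {n : ℕ} (s t : Cube n → ℝ) (hs : ∀ x, s x ∈ Ioo (-1 : ℝ) 1)
    (ht : ∀ x, t x ∈ Ioo (-1 : ℝ) 1) {al be ga : ℝ} (hal : al ≤ 0) (hbe : 0 ≤ be)
    (hT : ∀ M D : ℝ, 0 ≤ M → 0 ≤ D → M + D < 1 →
      al * (1 - M) + be * D ≤ cc (M + D) (M - D) + ga * Ht M D) :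
    al * (1 - |(av s + av t) / 2|) + be * |(av s - av t) / 2|
      ≤ av (fun x => cc (s x) (t x)) +
        ga * ((av (fun x => H (s x)) + av (fun x => H (t x))) / 2) := by
  -- signs
  obtain ⟨σ, hσ, hσ'⟩ : ∃ σ : ℝ, |(av s + av t) / 2| = σ * ((av s + av t) / 2) ∧
      (σ = 1 ∨ σ = -1) := by
    rcases abs_choice ((av s + av t) / 2) with h | h
    · exact ⟨1, by rw [h, one_mul], Or.inl rfl⟩
    · exact ⟨-1, by rw [h, neg_one_mul], Or.inr rfl⟩
  obtain ⟨τ, hτ, hτ'⟩ : ∃ τ : ℝ, |(av s - av t) / 2| = τ * ((av s - av t) / 2) ∧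
      (τ = 1 ∨ τ = -1) := by
    rcases abs_choice ((av s - av t) / 2) with h | h
    · exact ⟨1, by rw [h, one_mul], Or.inl rfl⟩
    · exact ⟨-1, by rw [h, neg_one_mul], Or.inr rfl⟩
  have hle : ∀ z : ℝ, ∀ κ : ℝ, (κ = 1 ∨ κ = -1) → κ * z ≤ |z| := by
    rintro z κ (h | h) <;> rw [h]
    · rw [one_mul]; exact le_abs_self z
    · rw [neg_one_mul]; exact neg_le_abs z
  have hpt : ∀ x, al * (1 - σ * ((s x + t x) / 2)) + be * (τ * ((s x - t x) / 2))
      ≤ cc (s x) (t x) + ga * ((H (s x) + H (t x)) / 2) := by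
    intro x
    have h1 := hT |(s x + t x) / 2| |(s x - t x) / 2| (abs_nonneg _) (abs_nonneg _)
      (abs_add_lt (hs x) (ht x))
    rw [cc_abs, Ht_abs] at h1
    have e1 : (s x + t x) / 2 + (s x - t x) / 2 = s x := by ring
    have e2 : (s x + t x) / 2 - (s x - t x) / 2 = t x := by ring
    unfold Ht at h1
    rw [e1, e2] at h1
    have h2 := hle ((s x + t x) / 2) σ hσ'
    have h3 := hle ((s x - t x) / 2) τ hτ'
    have h4 := mul_le_mul_of_nonneg_left h3 hbe
    have h5 : al * (1 - σ * ((s x + t x) / 2)) ≤ al * (1 - |(s x + t x) / 2|) :=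
      mul_le_mul_of_nonpos_left (by linarith) hal
    linarith
  have h := av_mono hpt
  have e1 : av (fun x => al * (1 - σ * ((s x + t x) / 2)) + be * (τ * ((s x - t x) / 2)))
      = al * (1 - σ * ((av s + av t) / 2)) + be * (τ * ((av s - av t) / 2)) := by
    have e3 : ∀ x, al * (1 - σ * ((s x + t x) / 2)) + be * (τ * ((s x - t x) / 2))
        = al + ((-(al * σ) / 2 + be * τ / 2) * s x + (-(al * σ) / 2 - be * τ / 2) * t x) := by
      intro x; ring
    rw [av_congr e3, av_add, av_add, av_const, av_smul, av_smul]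
    ring
  have e2 : av (fun x => cc (s x) (t x) + ga * ((H (s x) + H (t x)) / 2))
      = av (fun x => cc (s x) (t x)) +
        ga * ((av (fun x => H (s x)) + av (fun x => H (t x))) / 2) := by
    have e3 : ∀ x, cc (s x) (t x) + ga * ((H (s x) + H (t x)) / 2)
        = cc (s x) (t x) + (ga / 2 * H (s x) + ga / 2 * H (t x)) := by
      intro x; ring
    rw [av_congr e3, av_add, av_add, av_smul, av_smul]
    ring
  rw [e1, e2] at h
  rw [hσ, hτ]
  exact h

theorem Ht_continuous : Continuous (fun p : ℝ × ℝ => Ht p.1 p.2) := by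
  unfold Ht
  have := continuous_H
  fun_prop

/-- The core inequality. -/
theorem core (hC : HypC) (hII : HypII) (hI : HypI) (hD : HypD) {n : ℕ} (s t : Cube n → ℝ)
    (hs : ∀ x, s x ∈ Ioo (-1 : ℝ) 1) (ht : ∀ x, t x ∈ Ioo (-1 : ℝ) 1) :
    Gm ((av s + av t) / 2) ((av s - av t) / 2)
      ((av (fun x => H (s x)) + av (fun x => H (t x))) / 2) ≤ av (fun x => cc (s x) (t x)) := by
  have hlaw := fun {al be ga : ℝ} (h1 : al ≤ 0) (h2 : 0 ≤ be) h3 =>
    law_step s t hs ht (al := al) (be := be) (ga := ga) h1 h2 h3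
  have hsa := av_Ioo s hs
  have hta := av_Ioo t ht
  have hme := abs_add_lt hsa hta
  rw [← Gm_abs]
  -- `x ≤ Ht m e`
  have hxle : (av (fun x => H (s x)) + av (fun x => H (t x))) / 2
      ≤ Ht |(av s + av t) / 2| |(av s - av t) / 2| := by
    rw [Ht_abs]
    unfold Ht
    have e1 : (av s + av t) / 2 + (av s - av t) / 2 = av s := by ring
    have e2 : (av s + av t) / 2 - (av s - av t) / 2 = av t := by ring
    rw [e1, e2]
    have := av_H_le s hs
    have := av_H_le t ht
    linarith
  have hx0 : 0 < (av (fun x => H (s x)) + av (fun x => H (t x))) / 2 := by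
    have h1 : 0 < av (fun x => H (s x)) := by
      unfold av
      exact div_pos (Finset.sum_pos (fun y _ => H_pos (hs y)) Finset.univ_nonempty) (by positivity)
    have h2 : 0 < av (fun x => H (t x)) := by
      unfold av
      exact div_pos (Finset.sum_pos (fun y _ => H_pos (ht y)) Finset.univ_nonempty) (by positivity)
    linarith
  have hc0 : 0 ≤ av (fun x => cc (s x) (t x)) := by
    unfold av
    exact div_nonneg (Finset.sum_nonneg fun x _ => cc_nonneg (hs x) (ht x)) (by positivity)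
  set m := |(av s + av t) / 2| with hm
  set e := |(av s - av t) / 2| with he
  set x := (av (fun x => H (s x)) + av (fun x => H (t x))) / 2 with hx
  set c := av (fun x => cc (s x) (t x)) with hcdef
  have hm0 : 0 ≤ m := abs_nonneg _
  have he0 : 0 ≤ e := abs_nonneg _
  rcases eq_or_lt_of_le he0 with he0' | hepos
  · rw [← he0', Gm_zero]; exact hc0
  have h1m : 0 < 1 - m := by linarith
  set ρ := e / (1 - m) with hρ
  have hρ0 : 0 < ρ := by positivity
  have hρ1 : ρ < 1 := by rw [hρ, div_lt_one h1m]; linarith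
  rcases le_or_gt (H ρ) (x / (1 - m)) with hcase | hcase
  · -- case 1
    have hcont : ContinuousOn (fun M : ℝ => Ht M (ρ * (1 - M)) / (1 - M)) (Icc 0 m) := by
      refine ContinuousOn.div ?_ (by fun_prop) ?_
      · have : Continuous (fun M : ℝ => Ht M (ρ * (1 - M))) :=
          Ht_continuous.comp (by fun_prop : Continuous fun M : ℝ => (M, ρ * (1 - M)))
        exact this.continuousOn
      · intro M hM; linarith [hM.2]
    have hiv := intermediate_value_Icc hm0 hcont
    have hmem : x / (1 - m) ∈ Icc (Ht 0 (ρ * (1 - 0)) / (1 - 0)) (Ht m (ρ * (1 - m)) / (1 - m)) := by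
      constructor
      · have e1 : Ht 0 (ρ * (1 - 0)) / (1 - 0) = H ρ := by
          unfold Ht
          rw [sub_zero, mul_one, zero_add, zero_sub, H_neg]; ring
        rw [e1]; exact hcase
      · have e2 : ρ * (1 - m) = e := by rw [hρ]; field_simp
        rw [e2]
        gcongr
    obtain ⟨M1, hM1, hM1x⟩ := hiv hmem
    simp only at hM1x
    have h1M : 0 < 1 - M1 := by linarith [hM1.2]
    set D1 := ρ * (1 - M1) with hD1
    have hD1pos : 0 < D1 := by positivity
    have hsum : M1 + D1 < 1 := by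
      rw [hD1]; nlinarith
    set w := (1 - m) / (1 - M1) with hw
    have hw0 : 0 < w := by positivity
    have hw1 : w ≤ 1 := by rw [hw, div_le_one h1M]; linarith [hM1.2]
    have hwm : w * (1 - M1) = 1 - m := by rw [hw]; field_simp
    have hwe : w * D1 = e := by
      rw [hD1, ← mul_assoc, mul_comm w ρ, mul_assoc, hwm, hρ]; field_simp
    have hwx : w * Ht M1 D1 = x := by
      have h3 : Ht M1 D1 = x / (1 - m) * (1 - M1) := by
        rw [← hM1x]; field_simp
      rw [h3, mul_comm w, mul_assoc, mul_comm (1 - M1) w, hwm]; field_simp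
    obtain ⟨al, be, ga, hga, hal, hbe, -, heq, hT⟩ := hC M1 D1 hM1.1 hD1pos hsum
    have hl := hlaw hal hbe hT
    have hwc : w * cc (M1 + D1) (M1 - D1) ≤ c := by
      have h4 : w * cc (M1 + D1) (M1 - D1) = al * (1 - m) + be * e - ga * x := by
        rw [← hwm, ← hwe, ← hwx]
        linear_combination (-w) * heq
      rw [h4]; linarith
    have hHt : 0 < Ht M1 D1 := by
      by_contra hneg
      push Not at hneg
      nlinarith
    have h5 := hI M1 D1 (Ht M1 D1) w hM1.1 hD1pos.le hsum hHt hw0 hw1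
    have h6 := hD M1 D1 hM1.1 hD1pos.le hsum
    have h7 : 1 - w * (1 - M1) = m := by rw [hwm]; ring
    rw [h7, hwe, hwx] at h5
    have h8 := mul_le_mul_of_nonneg_left h6 hw0.le
    linarith
  · -- case 2
    have hcont : ContinuousOn (fun p : ℝ => H p / p) (Icc ρ 1) := by
      refine ContinuousOn.div continuous_H.continuousOn continuousOn_id ?_
      intro p hp
      have : 0 < p := lt_of_lt_of_le hρ0 hp.1
      exact this.ne'
    have hiv := intermediate_value_Icc' hρ1.le hcont
    have hxe : x / e < H ρ / ρ := by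
      rw [div_lt_div_iff₀ hepos hρ0]
      rw [div_lt_iff₀ h1m] at hcase
      have : H ρ * e = H ρ * (1 - m) * ρ := by rw [hρ]; field_simp
      rw [this]
      exact mul_lt_mul_of_pos_right hcase hρ0
    obtain ⟨p, hp, hpx⟩ := hiv (show x / e ∈ Icc (H 1 / 1) (H ρ / ρ) from
      ⟨by rw [H_one]; simp; positivity, hxe.le⟩)
    simp only at hpx
    have hpρ : ρ < p := by
      rcases eq_or_lt_of_le hp.1 with h | h
      · rw [← h] at hpx; linarith
      · exact h
    have hp0 : 0 < p := lt_trans hρ0 hpρ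
    have hp1 : p < 1 := by
      rcases eq_or_lt_of_le hp.2 with h | h
      · rw [h, H_one] at hpx
        have : 0 < x / e := by positivity
        linarith
      · exact h
    set w := e / p with hw
    have hw0 : 0 < w := by positivity
    have hwp : w * p = e := by rw [hw]; field_simp
    have hwm : w < 1 - m := by
      rw [hw, div_lt_iff₀ hp0]
      rw [hρ, div_lt_iff₀ h1m] at hpρ
      linarith
    have hHt : Ht 0 p = H p := by
      unfold Ht; rw [zero_add, zero_sub, H_neg]; ring
    have hwx : w * Ht 0 p = x := by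
      rw [hHt]
      have h3 : H p = x / e * p := by rw [← hpx]; field_simp
      rw [h3, hw]; field_simp
    obtain ⟨al, be, ga, hga, hal, hbe, hal0, heq, hT⟩ := hC 0 p le_rfl hp0 (by linarith)
    have hal0 := hal0 rfl
    have hl := hlaw hal hbe hT
    rw [hal0] at hl heq
    have hwc : w * cc (0 + p) (0 - p) ≤ c := by
      have h4 : w * cc (0 + p) (0 - p) = be * e - ga * x := by
        rw [← hwp, ← hwx]
        linear_combination (-w) * heq
      rw [h4]; linarith
    have hHtp : 0 < Ht 0 p := by rw [hHt]; exact H_pos ⟨by linarith, hp1⟩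
    have h5 := hI 0 p (Ht 0 p) w le_rfl hp0.le (by linarith) hHtp hw0 (by linarith)
    have h6 := hD 0 p le_rfl hp0.le (by linarith)
    rw [sub_zero, mul_one, hwp, hwx] at h5
    have h8 := mul_le_mul_of_nonneg_left h6 hw0.le
    have h9 := hII m (1 - w) e x hm0 (by linarith) he0 (by
      have : e < w := by rw [← hwp]; nlinarith
      linarith) hx0
    linarith

/-- The Bellman function. -/
noncomputable def BP (m x : ℝ) : ℝ := 2 * (H m - x) + F2 (P2 m) x

/-- The main inequality. -/
theorem MI_BP (hC : HypC) (hII : HypII) (hI : HypI) (hD : HypD) : MI BP := by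
  intro n s t hs ht
  have hcore := core hC hII hI hD s t hs ht
  have hsa := av_Ioo s hs
  have hta := av_Ioo t ht
  have h1 : 0 < av (fun x => H (s x)) := by
    unfold av
    exact div_pos (Finset.sum_pos (fun y _ => H_pos (hs y)) Finset.univ_nonempty) (by positivity)
  have h2 : 0 < av (fun x => H (t x)) := by
    unfold av
    exact div_pos (Finset.sum_pos (fun y _ => H_pos (ht y)) Finset.univ_nonempty) (by positivity)
  have hmid := F2_mid (P2_pos hsa) (P2_pos hta) h1 h2
  unfold Gm at hcore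
  have e1 : (av s + av t) / 2 + (av s - av t) / 2 = av s := by ring
  have e2 : (av s + av t) / 2 - (av s - av t) / 2 = av t := by ring
  rw [e1, e2] at hcore
  unfold BP
  linarith

end CK
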