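import Vale.Agent.H9.CK.Semi

/-!
# P322: elementary facts on `A`, `J`
-/

open Real

namespace CK.U

theorem monoOn {D : Set ℝ} (hD : Convex ℝ D) {f f' : ℝ → ℝ} (hc : ContinuousOn f D)
    (hd : ∀ x ∈ interior D, HasDerivAt f (f' x) x) (hn : ∀ x ∈ interior D, 0 ≤ f' x) :
    MonotoneOn f D :=
  monotoneOn_of_deriv_nonneg hD hc
    (fun x hx => (hd x hx).differentiableAt.differentiableWithinAt)
    (fun x hx => by rw [(hd x hx).deriv]; exact hn x hx)

theorem A_zero : A 0 = 0 := by unfold A; simp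

theorem hasDerivAt_A {t : ℝ} (h : t ∈ Set.Ioo (-1 : ℝ) 1) : HasDerivAt A (1 / (1 - t ^ 2)) t := by
  obtain ⟨h1, h2⟩ := h
  have e1 : HasDerivAt (fun t : ℝ => log (1 + t)) (1 / (1 + t)) t :=
    ((hasDerivAt_id t).const_add 1).log (by simp; linarith)
  have e2 : HasDerivAt (fun t : ℝ => log (1 - t)) (-1 / (1 - t)) t :=
    ((hasDerivAt_id t).const_sub 1).log (by simp; linarith)
  have e3 := (e1.sub e2).div_const 2
  refine e3.congr_deriv ?_
  have h3 : 1 + t ≠ 0 := by linarith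
  have h4 : 1 - t ≠ 0 := by linarith
  have h5 : 1 - t ^ 2 ≠ 0 := by
    have : 1 - t ^ 2 = (1 + t) * (1 - t) := by ring
    rw [this]; exact mul_ne_zero h3 h4
  field_simp
  ring

theorem continuousAt_A {t : ℝ} (h : t ∈ Set.Ioo (-1 : ℝ) 1) : ContinuousAt A t :=
  (hasDerivAt_A h).continuousAt

theorem J_zero : J 0 = 0 := by
  unfold J H; norm_num
  rw [show (1 / 2 : ℝ) = 2⁻¹ by norm_num, binEntropy_two_inv]; ring

theorem A_ge {t : ℝ} (h0 : 0 ≤ t) (h1 : t < 1) : t + t ^ 3 / 3 ≤ A t := by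
  have hm : MonotoneOn (fun t => A t - (t + t ^ 3 / 3)) (Set.Ico (0 : ℝ) 1) := by
    refine monoOn (f' := fun t => 1 / (1 - t ^ 2) - (1 + t ^ 2)) (convex_Ico _ _) ?_ ?_ ?_
    · intro x hx
      refine ContinuousAt.continuousWithinAt ?_
      have := continuousAt_A (t := x) ⟨by linarith [hx.1], hx.2⟩
      fun_prop
    · intro x hx
      rw [interior_Ico] at hx
      have h2 := hasDerivAt_A (t := x) ⟨by linarith [hx.1], hx.2⟩
      have h3 : HasDerivAt (fun t : ℝ => t + t ^ 3 / 3) (1 + x ^ 2) x := by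
        have := (hasDerivAt_id x).add (((hasDerivAt_id x).pow 3).div_const 3)
        refine this.congr_deriv ?_
        simp
      exact h2.sub h3
    · intro x hx
      rw [interior_Ico] at hx
      have hx2 : 0 < 1 - x ^ 2 := by nlinarith [hx.1, hx.2]
      rw [sub_nonneg, le_div_iff₀ hx2]
      nlinarith [sq_nonneg (x ^ 2)]
  have := hm (Set.mem_Ico.2 ⟨le_rfl, by norm_num⟩) (Set.mem_Ico.2 ⟨h0, h1⟩) h0
  simp only [A_zero] at this
  linarith

theorem A_mul_sqrt {t : ℝ} (h0 : 0 ≤ t) (h1 : t < 1) : A t * √(1 - t ^ 2) ≤ t := by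
  have hm : MonotoneOn (fun t => t / √(1 - t ^ 2) - A t) (Set.Ico (0 : ℝ) 1) := by
    refine monoOn (f' := fun t => (1 * √(1 - t ^ 2) - t * (-(2 * t) / (2 * √(1 - t ^ 2)))) /
        (√(1 - t ^ 2)) ^ 2 - 1 / (1 - t ^ 2)) (convex_Ico _ _) ?_ ?_ ?_
    · intro x hx
      refine ContinuousAt.continuousWithinAt ?_
      have h2 := continuousAt_A (t := x) ⟨by linarith [hx.1], hx.2⟩
      have hx2 : 0 < 1 - x ^ 2 := by nlinarith [hx.1, hx.2]
      have h3 : √(1 - x ^ 2) ≠ 0 := (Real.sqrt_pos.2 hx2).ne'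
      fun_prop (disch := exact h3)
    · intro x hx
      rw [interior_Ico] at hx
      have h2 := hasDerivAt_A (t := x) ⟨by linarith [hx.1], hx.2⟩
      have hx2 : 0 < 1 - x ^ 2 := by nlinarith [hx.1, hx.2]
      have h3 : √(1 - x ^ 2) ≠ 0 := (Real.sqrt_pos.2 hx2).ne'
      have h4 : HasDerivAt (fun t : ℝ => 1 - t ^ 2) (-(2 * x)) x := by
        have := ((hasDerivAt_id x).pow 2).const_sub 1
        refine this.congr_deriv ?_
        simp
      have h5 := h4.sqrt hx2.ne'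
      exact ((hasDerivAt_id x).div h5 h3).sub h2
    · intro x hx
      rw [interior_Ico] at hx
      have hx2 : 0 < 1 - x ^ 2 := by nlinarith [hx.1, hx.2]
      have hs := Real.sqrt_pos.2 hx2
      have hsq := Real.sq_sqrt hx2.le
      have hle : √(1 - x ^ 2) ≤ 1 := Real.sqrt_le_one.2 (by nlinarith [hx.1])
      set s := √(1 - x ^ 2) with hsdef
      have e1 : (1 * s - x * (-(2 * x) / (2 * s))) / s ^ 2 = 1 / (s * (1 - x ^ 2)) := by
        rw [← hsq]
        have hx3 : x ^ 2 = 1 - s ^ 2 := by linarith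
        field_simp
        rw [hx3]; ring
      rw [e1, sub_nonneg]
      exact one_div_le_one_div_of_le (by positivity) (by nlinarith)
  have h2 := hm (Set.mem_Ico.2 ⟨le_rfl, by norm_num⟩) (Set.mem_Ico.2 ⟨h0, h1⟩) h0
  simp only [A_zero, zero_div, sub_zero] at h2
  have hx2 : 0 < 1 - t ^ 2 := by nlinarith
  have hs := Real.sqrt_pos.2 hx2
  rw [sub_nonneg, le_div_iff₀ hs] at h2
  exact h2

theorem J_sub_mono : MonotoneOn (fun t => J t - (t ^ 2 / 2 + t ^ 4 / 12)) (Set.Icc (0 : ℝ) 1) := by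
  refine monoOn (f' := fun t => A t - (t + t ^ 3 / 3)) (convex_Icc _ _) ?_ ?_ ?_
  · exact (continuous_J.sub (by fun_prop)).continuousOn
  · intro x hx
    rw [interior_Icc] at hx
    have h2 := hasDerivAt_J (t := x) ⟨by linarith [hx.1], hx.2⟩
    have h3 : HasDerivAt (fun t : ℝ => t ^ 2 / 2 + t ^ 4 / 12) (x + x ^ 3 / 3) x := by
      have := (((hasDerivAt_id x).pow 2).div_const 2).add (((hasDerivAt_id x).pow 4).div_const 12)
      refine this.congr_deriv ?_
      simp; ring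
    exact h2.sub h3
  · intro x hx
    rw [interior_Icc] at hx
    have := A_ge hx.1.le hx.2
    linarith

theorem J_sub_mono' : MonotoneOn (fun t => J t - t ^ 2 / 2) (Set.Icc (0 : ℝ) 1) := by
  intro x hx y hy hxy
  have h := J_sub_mono hx hy hxy
  have h2 : x ^ 4 ≤ y ^ 4 := pow_le_pow_left₀ hx.1 hxy 4
  simp only at h ⊢
  linarith

theorem J_ge2 {t : ℝ} (h0 : 0 ≤ t) (h1 : t ≤ 1) : t ^ 2 / 2 ≤ J t := by
  have h := J_sub_mono' (Set.mem_Icc.2 ⟨le_rfl, zero_le_one⟩) (Set.mem_Icc.2 ⟨h0, h1⟩) h0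
  simp only [J_zero] at h
  linarith

theorem J_neg (t : ℝ) : J (-t) = J t := by unfold J; rw [H_neg]

theorem J_abs (t : ℝ) : J |t| = J t := by
  rcases abs_choice t with h | h <;> rw [h]
  exact J_neg t

/-- `J m ≥ m²/2 + m⁴/12`. -/
theorem J_ge4 {m : ℝ} (h : m ∈ Set.Icc (-1 : ℝ) 1) : m ^ 2 / 2 + m ^ 4 / 12 ≤ J m := by
  have h1 : |m| ≤ 1 := abs_le.2 h
  have h := J_sub_mono (Set.mem_Icc.2 ⟨le_rfl, zero_le_one⟩) (Set.mem_Icc.2 ⟨abs_nonneg m, h1⟩)
    (abs_nonneg m)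
  simp only [J_zero] at h
  have e2 : |m| ^ 2 = m ^ 2 := sq_abs m
  have e4 : |m| ^ 4 = m ^ 4 := by
    calc |m| ^ 4 = (|m| ^ 2) ^ 2 := by ring
      _ = m ^ 4 := by rw [e2]; ring
  rw [J_abs, e2, e4] at h
  linarith

/-- `3 A t ≤ t/(1-t²) + 2 t`. -/
theorem A_le3 {t : ℝ} (h0 : 0 ≤ t) (h1 : t < 1) : 3 * A t ≤ t / (1 - t ^ 2) + 2 * t := by
  have hm : MonotoneOn (fun t => t / (1 - t ^ 2) + 2 * t - 3 * A t) (Set.Ico (0 : ℝ) 1) := by
    refine monoOn (f' := fun t => ((1 * (1 - t ^ 2) - t * (-(2 * t))) / (1 - t ^ 2) ^ 2 + 2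
        - 3 * (1 / (1 - t ^ 2)))) (convex_Ico _ _) ?_ ?_ ?_
    · intro x hx
      refine ContinuousAt.continuousWithinAt ?_
      have h2 := continuousAt_A (t := x) ⟨by linarith [hx.1], hx.2⟩
      have hx2 : 1 - x ^ 2 ≠ 0 := by nlinarith [hx.1, hx.2]
      fun_prop (disch := exact hx2)
    · intro x hx
      rw [interior_Ico] at hx
      have h2 := hasDerivAt_A (t := x) ⟨by linarith [hx.1], hx.2⟩
      have hx2 : 0 < 1 - x ^ 2 := by nlinarith [hx.1, hx.2]
      have h4 : HasDerivAt (fun t : ℝ => 1 - t ^ 2) (-(2 * x)) x := by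
        have := ((hasDerivAt_id x).pow 2).const_sub 1
        refine this.congr_deriv ?_
        simp
      have h5 := (hasDerivAt_id x).div h4 hx2.ne'
      have h6 : HasDerivAt (fun t : ℝ => 2 * t) 2 x := by
        simpa using (hasDerivAt_id x).const_mul 2
      exact (h5.add h6).sub (h2.const_mul 3)
    · intro x hx
      rw [interior_Ico] at hx
      have hx2 : 0 < 1 - x ^ 2 := by nlinarith [hx.1, hx.2]
      have e : (1 * (1 - x ^ 2) - x * (-(2 * x))) / (1 - x ^ 2) ^ 2 + 2 - 3 * (1 / (1 - x ^ 2))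
          = 2 * x ^ 4 / (1 - x ^ 2) ^ 2 := by
        field_simp; ring
      rw [e]; positivity
  have h2 := hm (Set.mem_Ico.2 ⟨le_rfl, by norm_num⟩) (Set.mem_Ico.2 ⟨h0, h1⟩) h0
  simp only [A_zero] at h2
  norm_num at h2
  linarith

/-- `4 J t ≤ t A t + t²`. -/
theorem J_le_A {t : ℝ} (h0 : 0 ≤ t) (h1 : t < 1) : 4 * J t ≤ t * A t + t ^ 2 := by
  have hm : MonotoneOn (fun t => t * A t + t ^ 2 - 4 * J t) (Set.Ico (0 : ℝ) 1) := by
    refine monoOn (f' := fun t => ((1 * A t + t * (1 / (1 - t ^ 2))) + 2 * t - 4 * A t))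
      (convex_Ico _ _) ?_ ?_ ?_
    · intro x hx
      refine ContinuousAt.continuousWithinAt ?_
      have h2 := continuousAt_A (t := x) ⟨by linarith [hx.1], hx.2⟩
      have h3 := continuous_J.continuousAt (x := x)
      fun_prop
    · intro x hx
      rw [interior_Ico] at hx
      have hx' : x ∈ Set.Ioo (-1 : ℝ) 1 := ⟨by linarith [hx.1], hx.2⟩
      have h2 := hasDerivAt_A hx'
      have h3 := hasDerivAt_J hx'
      have h4 : HasDerivAt (fun t : ℝ => t ^ 2) (2 * x) x := by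
        have := (hasDerivAt_id x).pow 2
        refine this.congr_deriv ?_
        simp
      exact ((((hasDerivAt_id x).mul h2).add h4).sub (h3.const_mul 4))
    · intro x hx
      rw [interior_Ico] at hx
      have := A_le3 hx.1.le hx.2
      have e : x * (1 / (1 - x ^ 2)) = x / (1 - x ^ 2) := by ring
      rw [e]; linarith
  have h2 := hm (Set.mem_Ico.2 ⟨le_rfl, by norm_num⟩) (Set.mem_Ico.2 ⟨h0, h1⟩) h0
  simp only [A_zero, J_zero] at h2
  norm_num at h2
  linarith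

/-- `J m ≤ m²/2 + (log 2 - 1/2) m⁴`. -/
theorem J_le4 {m : ℝ} (h : m ∈ Set.Icc (-1 : ℝ) 1) :
    J m ≤ m ^ 2 / 2 + (log 2 - 1 / 2) * m ^ 4 := by
  -- first for `0 < t ≤ 1`
  have key : ∀ t ∈ Set.Ioc (0 : ℝ) 1, J t ≤ t ^ 2 / 2 + (log 2 - 1 / 2) * t ^ 4 := by
    have hm : MonotoneOn (fun t => (J t - t ^ 2 / 2) / t ^ 4) (Set.Ioc (0 : ℝ) 1) := by
      refine monoOn (f' := fun t => ((A t - t) * t ^ 4 - (J t - t ^ 2 / 2) * (4 * t ^ 3)) /
        (t ^ 4) ^ 2) (convex_Ioc _ _) ?_ ?_ ?_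
      · intro x hx
        refine ContinuousAt.continuousWithinAt ?_
        have h3 := continuous_J.continuousAt (x := x)
        have hx4 : x ^ 4 ≠ 0 := (pow_pos hx.1 4).ne'
        fun_prop (disch := exact hx4)
      · intro x hx
        rw [interior_Ioc] at hx
        have hx' : x ∈ Set.Ioo (-1 : ℝ) 1 := ⟨by linarith [hx.1], hx.2⟩
        have h3 := hasDerivAt_J hx'
        have h4 : HasDerivAt (fun t : ℝ => t ^ 2 / 2) x x := by
          have := ((hasDerivAt_id x).pow 2).div_const 2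
          refine this.congr_deriv ?_
          simp
        have h5 : HasDerivAt (fun t : ℝ => t ^ 4) (4 * x ^ 3) x := by
          have := (hasDerivAt_id x).pow 4
          refine this.congr_deriv ?_
          simp
        exact (h3.sub h4).div h5 (pow_pos hx.1 4).ne'
      · intro x hx
        rw [interior_Ioc] at hx
        have h6 := J_le_A hx.1.le hx.2
        refine div_nonneg ?_ (by positivity)
        have e : (A x - x) * x ^ 4 - (J x - x ^ 2 / 2) * (4 * x ^ 3)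
            = x ^ 3 * (x * A x + x ^ 2 - 4 * J x) := by ring
        rw [e]
        exact mul_nonneg (pow_pos hx.1 3).le (by linarith)
    intro t ht
    have h2 := hm ht (Set.mem_Ioc.2 ⟨one_pos, le_rfl⟩) ht.2
    simp only [J_one, one_pow, div_one] at h2
    rw [div_le_iff₀ (pow_pos ht.1 4)] at h2
    linarith
  have h1 : |m| ≤ 1 := abs_le.2 h
  rcases eq_or_ne m 0 with rfl | hm
  · simp [J_zero]
  · have h2 := key |m| ⟨abs_pos.2 hm, h1⟩
    have e2 : |m| ^ 2 = m ^ 2 := sq_abs m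
    have e4 : |m| ^ 4 = m ^ 4 := by
      calc |m| ^ 4 = (|m| ^ 2) ^ 2 := by ring
        _ = m ^ 4 := by rw [e2]; ring
    rwa [J_abs, e2, e4] at h2

/-- `P(m) = (1-m²)(1+c m²)`, `c = 1 - 1/(2 log 2)`. -/
noncomputable def P2 (m : ℝ) : ℝ := (1 - m ^ 2) * (1 + (1 - 1 / (2 * log 2)) * m ^ 2)

/-- `κ(m) = H(m) - log 2 * P(m)`. -/
noncomputable def kap (m : ℝ) : ℝ := H m - log 2 * P2 m

theorem kap_eq (m : ℝ) : kap m = (log 2 - 1 / 2) * m ^ 4 - (J m - m ^ 2 / 2) := by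
  have hl : log 2 ≠ 0 := (Real.log_pos (by norm_num)).ne'
  unfold kap P2 J
  field_simp
  ring

theorem kap_nonneg {m : ℝ} (h : m ∈ Set.Icc (-1 : ℝ) 1) : 0 ≤ kap m := by
  rw [kap_eq]; have := J_le4 h; linarith

theorem kap_le {m : ℝ} (h : m ∈ Set.Icc (-1 : ℝ) 1) : kap m ≤ 0.11 * m ^ 4 := by
  rw [kap_eq]
  have h1 := J_ge4 h
  have h2 : log 2 < 0.6931471808 := Real.log_two_lt_d9
  have h3 : 0 ≤ m ^ 4 := by positivity
  nlinarith

theorem P2_pos {m : ℝ} (h : m ∈ Set.Ioo (-1 : ℝ) 1) : 0 < P2 m := by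
  unfold P2
  have h1 : 0 < 1 - m ^ 2 := by nlinarith [h.1, h.2]
  have h2 : 0.6931471803 < log 2 := Real.log_two_gt_d9
  have h3 : 1 / (2 * log 2) ≤ 1 := by
    rw [div_le_one (by linarith)]; linarith
  have h4 : 0 ≤ (1 - 1 / (2 * log 2)) * m ^ 2 := mul_nonneg (by linarith) (sq_nonneg m)
  positivity

theorem P2_le {m : ℝ} (h : m ∈ Set.Icc (-1 : ℝ) 1) : P2 m ≤ 1 - 0.72 * m ^ 2 := by
  unfold P2
  have h1 : m ^ 2 ≤ 1 := by nlinarith [h.1, h.2]
  have h2 : log 2 < 0.6931471808 := Real.log_two_lt_d9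
  have h2' : 0.6931471803 < log 2 := Real.log_two_gt_d9
  have h3 : 0.72 ≤ 1 / (2 * log 2) := by
    rw [le_div_iff₀ (by linarith)]; linarith
  have h3' : 1 / (2 * log 2) ≤ 1 := by
    rw [div_le_one (by linarith)]; linarith
  set c := 1 / (2 * log 2)
  nlinarith [mul_nonneg (sub_nonneg.2 h3') (mul_nonneg (sq_nonneg m) (sq_nonneg m)),
    mul_nonneg (sub_nonneg.2 h3) (sq_nonneg m)]

end CK.U
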