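import Vale.Agent.H9.CK.Assembly
import Vale.Agent.H12.CK.ODE
import Vale.Agent.H24.CK.D2
import Vale.Agent.H29.CK.II

/-!
# P322: the Courtade-Kumar inequality from (C) and (i)
-/

open Real Set

namespace CK

theorem hypII : HypII := fun _ _ _ _ h0 h1 he h2 hx => Gm_mono h0 h1 he h2 hx

theorem hypD : HypD := fun _ _ hm he h => D_full hm he h

theorem BP_eq : BP = Bell P2 := rfl

/-- The Courtade-Kumar inequality from the tangent planes (C) and the star property (i). -/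
theorem ck_of_C_I (hC : HypC) (hI : HypI) {n : ℕ} (f : (Fin n → ℤˣ) → ℤˣ) (ε : ℝ) (h0 : 0 ≤ ε)
    (h1 : ε ≤ 1 / 2) : mutualInfo (jointLaw f ε) ≤ 1 - h₂ ε :=
  Ode.ck_of_MI (MI_BP hC hypII hI hypD) f ε h0 h1

end CK
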