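import Vale.Agent.H9.CK.Semi

/-!
# P322: the statement with random signs, and its translation
-/

open Real

namespace CK

/-- `P(Z = z)` for `n` independent signs, each equal to `-1` with probability `ε`. -/
noncomputable def noiseLaw {n : ℕ} (ε : ℝ) (z : Fin n → ℤˣ) : ℝ :=
  ∏ i, if z i = -1 then ε else 1 - ε

/-- `P(f(X) = b, X * Z = y)` where `X` is uniform on `{-1,1}^n` and `Z` has law `noiseLaw ε`,
independent of `X`. -/
noncomputable def jointLaw {n : ℕ} (f : (Fin n → ℤˣ) → ℤˣ) (ε : ℝ) (b : ℤˣ) (y : Fin n → ℤˣ) : ℝ :=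
  ∑ x, ∑ z, if f x = b ∧ x * z = y then (1 / 2 : ℝ) ^ n * noiseLaw ε z else 0

/-- Mutual information, in bits, of a pair of random variables with joint law `p`. -/
noncomputable def mutualInfo {α β : Type*} [Fintype α] [Fintype β] (p : α → β → ℝ) : ℝ :=
  ∑ a, ∑ b, p a b * logb 2 (p a b / ((∑ b', p a b') * ∑ a', p a' b))

/-- The binary entropy function in bits. -/
noncomputable def h₂ (p : ℝ) : ℝ := -p * logb 2 p - (1 - p) * logb 2 (1 - p)

/-- `Bool ≃ ℤˣ`, `true ↦ 1`. -/
def eB : Bool ≃ ℤˣ where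
  toFun b := if b then 1 else -1
  invFun u := decide (u = 1)
  left_inv b := by cases b <;> decide
  right_inv u := by rcases Int.units_eq_one_or u with h | h <;> subst h <;> decide

/-- The cube with bits and with signs. -/
def eC (n : ℕ) : Cube n ≃ (Fin n → ℤˣ) := Equiv.arrowCongr (Equiv.refl _) eB

theorem eC_apply {n : ℕ} (x : Cube n) (i : Fin n) : eC n x i = eB (x i) := rfl

/-- real value of a sign -/
noncomputable def rv (u : ℤˣ) : ℝ := ((u : ℤ) : ℝ)

theorem rv_cases (u : ℤˣ) : rv u = 1 ∨ rv u = -1 := by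
  rcases Int.units_eq_one_or u with h | h <;> subst h <;> simp [rv]

theorem noise_eq {n : ℕ} (ε : ℝ) (x y : Cube n) :
    noiseLaw ε ((eC n x)⁻¹ * eC n y) = K (1 - 2 * ε) x y := by
  unfold noiseLaw K
  refine Finset.prod_congr rfl fun i _ => ?_
  rw [Pi.mul_apply, Pi.inv_apply, eC_apply, eC_apply]
  cases x i <;> cases y i <;> simp [eB, sg] <;> ring

theorem ind_eq (u b : ℤˣ) : (if u = b then (1 : ℝ) else 0) = (1 + rv b * rv u) / 2 := by
  rcases Int.units_eq_one_or u with h | h <;> rcases Int.units_eq_one_or b with h' | h' <;>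
    subst h <;> subst h' <;> simp [rv]

theorem joint_eq {n : ℕ} (f : (Fin n → ℤˣ) → ℤˣ) (ε : ℝ) (b : ℤˣ) (y : Cube n) :
    jointLaw f ε b (eC n y)
      = (1 + rv b * T (1 - 2 * ε) (fun x => rv (f (eC n x))) y) / 2 / 2 ^ n := by
  unfold jointLaw
  rw [← (eC n).sum_comp]
  have h1 : ∀ x : Cube n, (∑ z, if f (eC n x) = b ∧ eC n x * z = eC n y
      then (1 / 2 : ℝ) ^ n * noiseLaw ε z else 0)
      = (1 / 2 : ℝ) ^ n * ((1 + rv b * rv (f (eC n x))) / 2 * K (1 - 2 * ε) x y) := by
    intro x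
    rw [← ind_eq, ← noise_eq]
    have h2 : ∀ z : Fin n → ℤˣ, (eC n x * z = eC n y) ↔ (z = (eC n x)⁻¹ * eC n y) := by
      intro z
      constructor
      · intro h; rw [← h, inv_mul_cancel_left]
      · intro h; rw [h, mul_inv_cancel_left]
    by_cases hf : f (eC n x) = b
    · simp only [hf, true_and, if_true, h2, one_mul]
      rw [Finset.sum_ite_eq']
      simp
    · simp [hf]
  simp_rw [h1]
  rw [← Finset.mul_sum]
  have h3 : ∑ x : Cube n, (1 + rv b * rv (f (eC n x))) / 2 * K (1 - 2 * ε) x y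
      = (1 + rv b * T (1 - 2 * ε) (fun x => rv (f (eC n x))) y) / 2 := by
    unfold T
    have h4 : ∀ x : Cube n, (1 + rv b * rv (f (eC n x))) / 2 * K (1 - 2 * ε) x y
        = 1 / 2 * K (1 - 2 * ε) x y + rv b / 2 * (rv (f (eC n x)) * K (1 - 2 * ε) x y) := by
      intro x; ring
    simp_rw [h4]
    rw [Finset.sum_add_distrib, ← Finset.mul_sum, ← Finset.mul_sum, sum_K]
    ring
  rw [h3, one_div, inv_pow]
  ring

theorem sum_units (g : ℤˣ → ℝ) : ∑ b, g b = g 1 + g (-1) := by
  rw [← eB.sum_comp, Fintype.sum_bool]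
  rfl

theorem mi_eq {n : ℕ} (f : (Fin n → ℤˣ) → ℤˣ) (ε : ℝ) (h0 : 0 ≤ ε) (h1 : ε ≤ 1 / 2) :
    mutualInfo (jointLaw f ε) * log 2
      = H (av (fun x => rv (f (eC n x))))
        - av (fun y => H (T (1 - 2 * ε) (fun x => rv (f (eC n x))) y)) := by
  set F : Cube n → ℝ := fun x => rv (f (eC n x)) with hFdef
  set m := av F with hm
  set ρ := 1 - 2 * ε with hρ
  have hF : ∀ x, F x = 1 ∨ F x = -1 := fun x => rv_cases _
  have hρ0 : 0 ≤ ρ := by rw [hρ]; linarith
  have hρ1 : ρ ≤ 1 := by rw [hρ]; linarith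
  have hT : ∀ y, T ρ F y ∈ Set.Icc (-1 : ℝ) 1 := T_mem_Icc hρ0 hρ1 F hF
  have hlog2 : log 2 ≠ 0 := (Real.log_pos (by norm_num)).ne'
  have h2n : (2 : ℝ) ^ n ≠ 0 := by positivity
  -- marginals
  have hPb : ∀ b : ℤˣ, ∑ y, jointLaw f ε b y = (1 + rv b * m) / 2 := by
    intro b
    rw [← (eC n).sum_comp]
    simp_rw [joint_eq]
    have h4 : ∀ y : Cube n, (1 + rv b * T ρ F y) / 2 / 2 ^ n
        = 1 / 2 / 2 ^ n + rv b / 2 * (T ρ F y / 2 ^ n) := by
      intro y; ring
    change ∑ y, (1 + rv b * T ρ F y) / 2 / 2 ^ n = _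
    simp_rw [h4]
    rw [Finset.sum_add_distrib, ← Finset.mul_sum]
    have h5 : ∑ y, T ρ F y / 2 ^ n = m := by
      rw [← Finset.sum_div, hm, ← av_T ρ F]; rfl
    rw [h5, Finset.sum_const, Finset.card_univ, Fintype.card_fun, Fintype.card_bool,
      Fintype.card_fin, nsmul_eq_mul]
    push_cast
    field_simp
  have hPy : ∀ y : Cube n, ∑ b, jointLaw f ε b (eC n y) = 1 / 2 ^ n := by
    intro y
    rw [sum_units, joint_eq, joint_eq]
    simp only [rv]
    push_cast
    ring
  -- each term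
  have hterm : ∀ (b : ℤˣ) (y : Cube n),
      jointLaw f ε b (eC n y) * logb 2 (jointLaw f ε b (eC n y) /
        ((∑ y', jointLaw f ε b y') * ∑ a', jointLaw f ε a' (eC n y))) * log 2
      = ((1 + rv b * T ρ F y) / 2 * log ((1 + rv b * T ρ F y) / 2)
        - (1 + rv b * T ρ F y) / 2 * log ((1 + rv b * m) / 2)) / 2 ^ n := by
    intro b y
    rw [hPb, hPy, joint_eq]
    change (1 + rv b * T ρ F y) / 2 / 2 ^ n * logb 2 ((1 + rv b * T ρ F y) / 2 / 2 ^ n /
      ((1 + rv b * m) / 2 * (1 / 2 ^ n))) * log 2 = _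
    have e1 : (1 + rv b * T ρ F y) / 2 / 2 ^ n / ((1 + rv b * m) / 2 * (1 / 2 ^ n))
        = ((1 + rv b * T ρ F y) / 2) / ((1 + rv b * m) / 2) := by
      field_simp
    rw [e1]
    have e2 : ∀ z, logb 2 z * log 2 = log z := by
      intro z; unfold logb; field_simp
    rw [mul_assoc, e2]
    by_cases hp : (1 + rv b * T ρ F y) / 2 = 0
    · rw [hp]; simp
    · have hq : (1 + rv b * m) / 2 ≠ 0 := by
        intro hq
        -- then F is constant equal to - rv b
        have hFc : ∀ x, F x = -rv b := by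
          have hs : ∑ x, (1 + rv b * F x) = 0 := by
            rw [Finset.sum_add_distrib, ← Finset.mul_sum, Finset.sum_const, Finset.card_univ,
              Fintype.card_fun, Fintype.card_bool, Fintype.card_fin, nsmul_eq_mul]
            have h5 : ∑ x, F x = m * 2 ^ n := by
              rw [hm]; unfold av; field_simp
            rw [h5]
            push_cast
            have h6 : 1 + rv b * m = 0 := by linarith
            linear_combination (2 : ℝ) ^ n * h6
          have hnn : ∀ x ∈ (Finset.univ : Finset (Cube n)), 0 ≤ 1 + rv b * F x := by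
            intro x _
            rcases rv_cases b with h | h <;> rcases hF x with h' | h' <;> rw [h, h'] <;> norm_num
          have hz := (Finset.sum_eq_zero_iff_of_nonneg hnn).1 hs
          intro x
          have hx := hz x (Finset.mem_univ x)
          rcases rv_cases b with h | h <;> rcases hF x with h' | h' <;> rw [h, h'] at hx <;>
            rw [h, h'] <;> linarith
        apply hp
        have : T ρ F y = -rv b := by
          unfold T
          simp_rw [hFc]
          rw [← Finset.mul_sum, sum_K, mul_one]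
        rw [this]
        rcases rv_cases b with h | h <;> rw [h] <;> norm_num
      rw [Real.log_div hp hq]
      ring
  -- sum
  have hsum : mutualInfo (jointLaw f ε) * log 2
      = ∑ y : Cube n, (((1 + T ρ F y) / 2 * log ((1 + T ρ F y) / 2)
        - (1 + T ρ F y) / 2 * log ((1 + m) / 2)) / 2 ^ n
        + ((1 - T ρ F y) / 2 * log ((1 - T ρ F y) / 2)
        - (1 - T ρ F y) / 2 * log ((1 - m) / 2)) / 2 ^ n) := by
    unfold mutualInfo
    rw [Finset.sum_comm, ← (eC n).sum_comp, Finset.sum_mul]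
    refine Finset.sum_congr rfl fun y _ => ?_
    rw [sum_units, add_mul, hterm, hterm]
    have r1 : rv 1 = 1 := by simp [rv]
    have r2 : rv (-1) = -1 := by simp [rv]
    rw [r1, r2, one_mul, one_mul, neg_one_mul, neg_one_mul]
    simp only [← sub_eq_add_neg]
  rw [hsum]
  have hHt : ∀ t : ℝ, (1 + t) / 2 * log ((1 + t) / 2) + (1 - t) / 2 * log ((1 - t) / 2)
      = - H t := by
    intro t
    unfold H
    rw [binEntropy_eq_negMulLog_add_negMulLog_one_sub, negMulLog, negMulLog]
    have e : 1 - (1 + t) / 2 = (1 - t) / 2 := by ring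
    rw [e]; ring
  have hy : ∀ y : Cube n, (((1 + T ρ F y) / 2 * log ((1 + T ρ F y) / 2)
        - (1 + T ρ F y) / 2 * log ((1 + m) / 2)) / 2 ^ n
        + ((1 - T ρ F y) / 2 * log ((1 - T ρ F y) / 2)
        - (1 - T ρ F y) / 2 * log ((1 - m) / 2)) / 2 ^ n)
      = -(H (T ρ F y) / 2 ^ n) - (log ((1 + m) / 2) + log ((1 - m) / 2)) / 2 * (1 / 2 ^ n)
        - (log ((1 + m) / 2) - log ((1 - m) / 2)) / 2 * (T ρ F y / 2 ^ n) := by
    intro y
    have := hHt (T ρ F y)
    field_simp
    field_simp at this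
    linear_combination this
  simp_rw [hy]
  rw [Finset.sum_sub_distrib, Finset.sum_sub_distrib, Finset.sum_neg_distrib, ← Finset.mul_sum,
    ← Finset.mul_sum]
  have h5 : ∑ y, T ρ F y / 2 ^ n = m := by
    rw [← Finset.sum_div, hm, ← av_T ρ F]; rfl
  have h6 : ∑ _y : Cube n, (1 : ℝ) / 2 ^ n = 1 := by
    rw [Finset.sum_const, Finset.card_univ, Fintype.card_fun, Fintype.card_bool,
      Fintype.card_fin, nsmul_eq_mul]
    push_cast
    field_simp
  rw [h5, h6]
  have h7 := hHt m
  have h8 : ∑ y, H (T ρ F y) / 2 ^ n = av (fun y => H (T ρ F y)) := by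
    unfold av; rw [Finset.sum_div]
  rw [h8]
  linear_combination -h7

/-- A Bellman function satisfying the main inequality gives `StarAt`. -/
theorem starAt_of_bellman (B : ℝ → ℝ → ℝ) (h0 : ∀ m ∈ Set.Ioo (-1 : ℝ) 1, B m (H m) ≤ 0)
    (hMI : MI B) (m : ℝ) (hB : ∀ θ ∈ Set.Ioo (0 : ℝ) 1, θ * A θ ≤ B m (H m - J θ)) :
    StarAt m := by
  intro n g hg hm θ hθ hJ
  have h1 := tens B h0 hMI n g hg
  have h2 := hB θ hθ
  rw [hJ, sub_sub_cancel] at h2
  rw [hm] at h1
  exact h2.trans h1

/-- The Courtade-Kumar inequality for `f`, given the nonlinear log-Sobolev inequality at the mean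
of `f`. -/
theorem ck_of_star {n : ℕ} (f : (Fin n → ℤˣ) → ℤˣ)
    (hS : StarAt (av (fun x => rv (f (eC n x))))) (ε : ℝ) (h0 : 0 ≤ ε) (h1 : ε ≤ 1 / 2) :
    mutualInfo (jointLaw f ε) ≤ 1 - h₂ ε := by
  have hlog2 : 0 < log 2 := Real.log_pos (by norm_num)
  have h := compare (fun x => rv (f (eC n x))) (fun x => rv_cases _) hS
    (ρ := 1 - 2 * ε) (by linarith) (by linarith)
  rw [← mi_eq f ε h0 h1] at h
  have hJ : J (1 - 2 * ε) = (1 - h₂ ε) * log 2 := by
    unfold J H h₂ logb
    have e : (1 + (1 - 2 * ε)) / 2 = 1 - ε := by ring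
    rw [e, binEntropy_one_sub, binEntropy_eq_negMulLog_add_negMulLog_one_sub, negMulLog, negMulLog]
    field_simp
    ring
  rw [hJ] at h
  exact le_of_mul_le_mul_right h hlog2

end CK
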