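import Vale.Agent.H9.CK.Final
import Vale.Agent.H23.CK.T
import Vale.Agent.H3.CK.Star

/-!
# P322: the Courtade-Kumar inequality
-/

open Real Set

namespace CK

theorem hypI : HypI := fun _ _ _ _ hm he h hh hw hw1 => Gm_star hm he h hh hw hw1

theorem hypC : HypC := by
  intro M1 D1 h0 h1 h2
  obtain ⟨al, be, ga, ha, hb, hg, hz, he, hi⟩ := C_tangent h0 h1 h2
  refine ⟨al, be, ga, hg, ha, hb, hz, ?_, ?_⟩
  · rw [← cm_cc]; exact he
  · intro M D hM hD h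
    rw [← cm_cc]; exact hi M D hM hD h

/-- **The Courtade-Kumar inequality.** -/
theorem courtade_kumar {n : ℕ} (f : (Fin n → ℤˣ) → ℤˣ) (ε : ℝ) (h0 : 0 ≤ ε)
    (h1 : ε ≤ 1 / 2) : mutualInfo (jointLaw f ε) ≤ 1 - h₂ ε :=
  ck_of_C_I hypC hypI f ε h0 h1

end CK
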