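import Vale.Agent.H9.CK.Calc
import Vale.Agent.H9.CK.Info

/-!
# P322: the ODE comparison for unbalanced functions
-/

open Real

namespace CK.U

/-- `arcosh (1/r)`. -/
noncomputable def Cr (r : ℝ) : ℝ := log (1 + √(1 - r ^ 2)) - log r

/-- `√(1-r²) - r² arcosh (1/r)`. -/
noncomputable def Gr (r : ℝ) : ℝ := √(1 - r ^ 2) - r ^ 2 * Cr r

theorem Cr_nonneg {r : ℝ} (h0 : 0 < r) (h1 : r ≤ 1) : 0 ≤ Cr r := by
  unfold Cr
  have h2 : 0 ≤ √(1 - r ^ 2) := Real.sqrt_nonneg _
  have := Real.log_le_log h0 (by linarith : r ≤ 1 + √(1 - r ^ 2))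
  linarith

theorem Cr_pos {r : ℝ} (h0 : 0 < r) (h1 : r < 1) : 0 < Cr r := by
  unfold Cr
  have h2 : 0 ≤ √(1 - r ^ 2) := Real.sqrt_nonneg _
  have := Real.log_lt_log h0 (by linarith : r < 1 + √(1 - r ^ 2))
  linarith

theorem Gr_one : Gr 1 = 0 := by unfold Gr Cr; simp

theorem Gr_add (r : ℝ) : Gr r + r ^ 2 * Cr r = √(1 - r ^ 2) := by unfold Gr; ring

theorem hasDerivAt_Cr {r : ℝ} (h0 : 0 < r) (h1 : r < 1) :
    HasDerivAt Cr (-1 / (r * √(1 - r ^ 2))) r := by
  have hx2 : 0 < 1 - r ^ 2 := by nlinarith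
  have hs := Real.sqrt_pos.2 hx2
  have hsq := Real.sq_sqrt hx2.le
  have h4 : HasDerivAt (fun t : ℝ => 1 - t ^ 2) (-(2 * r)) r := by
    have := ((hasDerivAt_id r).pow 2).const_sub 1
    refine this.congr_deriv ?_
    simp
  have h5 := h4.sqrt hx2.ne'
  have h6 := (h5.const_add 1).log (by positivity)
  have h7 := h6.sub (Real.hasDerivAt_log h0.ne')
  refine h7.congr_deriv ?_
  set s := √(1 - r ^ 2) with hsdef
  have h1s : 1 + s ≠ 0 := by positivity
  have hr2 : r ^ 2 = 1 - s ^ 2 := by linarith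
  field_simp
  rw [hr2]; ring

theorem hasDerivAt_Gr {r : ℝ} (h0 : 0 < r) (h1 : r < 1) :
    HasDerivAt Gr (-(2 * r * Cr r)) r := by
  have hx2 : 0 < 1 - r ^ 2 := by nlinarith
  have hs := Real.sqrt_pos.2 hx2
  have h4 : HasDerivAt (fun t : ℝ => 1 - t ^ 2) (-(2 * r)) r := by
    have := ((hasDerivAt_id r).pow 2).const_sub 1
    refine this.congr_deriv ?_
    simp
  have h5 := h4.sqrt hx2.ne'
  have h8 : HasDerivAt (fun t : ℝ => t ^ 2) (2 * r) r := by
    have := (hasDerivAt_id r).pow 2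
    refine this.congr_deriv ?_
    simp
  have h9 := h5.sub (h8.mul (hasDerivAt_Cr h0 h1))
  refine h9.congr_deriv ?_
  field_simp
  ring

theorem continuousOn_Gr : ContinuousOn Gr (Set.Ioi 0) := by
  intro r hr
  refine ContinuousAt.continuousWithinAt ?_
  have hr : 0 < r := hr
  have h1 : 1 + √(1 - r ^ 2) ≠ 0 := by positivity
  unfold Gr Cr
  fun_prop (disch := first | exact h1 | exact hr.ne')

theorem Gr_anti : AntitoneOn Gr (Set.Ioc (0 : ℝ) 1) := by
  have h : MonotoneOn (fun r => - Gr r) (Set.Ioc (0 : ℝ) 1) := by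
    refine monoOn (f' := fun r => 2 * r * Cr r) (convex_Ioc _ _) ?_ ?_ ?_
    · exact (continuousOn_Gr.mono fun x hx => hx.1).neg
    · intro x hx
      rw [interior_Ioc] at hx
      have := (hasDerivAt_Gr hx.1 hx.2).neg
      rwa [neg_neg] at this
    · intro x hx
      rw [interior_Ioc] at hx
      have := Cr_nonneg hx.1 hx.2.le
      have := hx.1
      positivity
  intro x hx y hy hxy
  have := h hx hy hxy
  simp only at this
  linarith

theorem Gr_nonneg {r : ℝ} (h0 : 0 < r) (h1 : r ≤ 1) : 0 ≤ Gr r := by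
  have := Gr_anti (Set.mem_Ioc.2 ⟨h0, h1⟩) (Set.mem_Ioc.2 ⟨one_pos, le_rfl⟩) h1
  rwa [Gr_one] at this

/-- `1 - G(r) ≤ r + r² log 2`. -/
theorem Gr_ge {r : ℝ} (h0 : 0 < r) (h1 : r ≤ 1) : 1 - r - r ^ 2 * log 2 ≤ Gr r := by
  have hx2 : 0 ≤ 1 - r ^ 2 := by nlinarith
  have hs0 := Real.sqrt_nonneg (1 - r ^ 2)
  have hs1 : √(1 - r ^ 2) ≤ 1 := Real.sqrt_le_one.2 (by nlinarith)
  have hsq := Real.sq_sqrt hx2
  have e1 : 1 - r ^ 2 ≤ √(1 - r ^ 2) := by nlinarith
  have e2 : log (1 + √(1 - r ^ 2)) ≤ log 2 := Real.log_le_log (by linarith) (by linarith)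
  have e3 : - log r ≤ 1 / r - 1 := by
    have := Real.log_le_sub_one_of_pos (x := 1 / r) (by positivity)
    rw [one_div, Real.log_inv] at this
    rw [one_div]; exact this
  have e4 : r ^ 2 * Cr r ≤ r ^ 2 * (log 2 + (1 / r - 1)) := by
    refine mul_le_mul_of_nonneg_left ?_ (sq_nonneg r)
    unfold Cr; linarith
  have e5 : r ^ 2 * (log 2 + (1 / r - 1)) = r ^ 2 * log 2 + r - r ^ 2 := by
    field_simp
    ring
  unfold Gr
  linarith

/-- `(1 - G(r))/r²` is antitone. -/
theorem Gr_ratio : AntitoneOn (fun r => (1 - Gr r) / r ^ 2) (Set.Ioc (0 : ℝ) 1) := by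
  have h : MonotoneOn (fun r => - ((1 - Gr r) / r ^ 2)) (Set.Ioc (0 : ℝ) 1) := by
    refine monoOn (f' := fun r => -((-(-(2 * r * Cr r)) * r ^ 2 - (1 - Gr r) * (2 * r)) /
      (r ^ 2) ^ 2)) (convex_Ioc _ _) ?_ ?_ ?_
    · refine ContinuousOn.neg (ContinuousOn.div ?_ (by fun_prop) ?_)
      · exact continuousOn_const.sub (continuousOn_Gr.mono fun x hx => hx.1)
      · intro x hx; exact (pow_pos hx.1 2).ne'
    · intro x hx
      rw [interior_Ioc] at hx
      have h8 : HasDerivAt (fun t : ℝ => t ^ 2) (2 * x) x := by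
        have := (hasDerivAt_id x).pow 2
        refine this.congr_deriv ?_
        simp
      exact (((hasDerivAt_Gr hx.1 hx.2).const_sub 1).div h8 (pow_pos hx.1 2).ne').neg
    · intro x hx
      rw [interior_Ioc] at hx
      have hx2 : 0 ≤ 1 - x ^ 2 := by nlinarith [hx.1, hx.2]
      have hs1 : √(1 - x ^ 2) ≤ 1 := Real.sqrt_le_one.2 (by nlinarith [hx.1, hx.2])
      have e : -((-(-(2 * x * Cr x)) * x ^ 2 - (1 - Gr x) * (2 * x)) / (x ^ 2) ^ 2)
          = 2 * x * (1 - √(1 - x ^ 2)) / (x ^ 2) ^ 2 := by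
        rw [← Gr_add x]; ring
      rw [e]
      have := hx.1
      exact div_nonneg (mul_nonneg (by positivity) (by linarith)) (by positivity)
  intro x hx y hy hxy
  have := h hx hy hxy
  simp only at this ⊢
  linarith

/-- The inequality `G(√(2κ)) ≥ P`. -/
theorem Gr_kap {m : ℝ} (h : m ∈ Set.Ioo (-1 : ℝ) 1) (hk : 0 < kap m) :
    √(2 * kap m) < 1 ∧ P2 m ≤ Gr (√(2 * kap m)) := by
  have hm := Set.Ioo_subset_Icc_self h
  have h1 := kap_le hm
  have h2 := P2_le hm
  have hm2 : m ^ 2 ≤ 1 := by nlinarith [h.1, h.2]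
  set r := √(2 * kap m) with hr
  have hr0 : 0 < r := Real.sqrt_pos.2 (by linarith)
  have hr2 : r ^ 2 = 2 * kap m := Real.sq_sqrt (by linarith)
  have hr3 : r ≤ 0.4691 * m ^ 2 := by
    rw [hr]
    refine Real.sqrt_le_iff.2 ⟨by positivity, ?_⟩
    nlinarith [sq_nonneg (m ^ 2)]
  have hr1 : r < 1 := by nlinarith
  refine ⟨hr1, ?_⟩
  have h4 := Gr_ge hr0 hr1.le
  have h5 : log 2 < 0.6931471808 := Real.log_two_lt_d9
  have h6 : r ^ 2 * log 2 ≤ 0.153 * m ^ 2 := by
    rw [hr2]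
    have h7 : 0 < log 2 := Real.log_pos (by norm_num)
    have h8 : kap m ≤ 0.11 * m ^ 2 := by nlinarith [sq_nonneg m]
    nlinarith [sq_nonneg m]
  linarith

/-- The Bellman inequality at mean `m`, in the form used for the comparison. -/
def BellAt (m : ℝ) : Prop :=
  ∀ (n : ℕ) (g : Cube n → ℝ), (∀ x, g x ∈ Set.Ioo (-1 : ℝ) 1) → av g = m →
    2 * (H m - av (fun x => H (g x))) ≤ Phi g ∧
    ∀ θ ∈ Set.Ioo (0 : ℝ) 1, kap m + P2 m * J θ = H m - av (fun x => H (g x)) →
      2 * kap m + P2 m * (θ * A θ) ≤ Phi g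

/-- `r² - a G(r)` -/
noncomputable def Wr (a r : ℝ) : ℝ := r ^ 2 - a * Gr r

theorem hasDerivAt_Wr {a r : ℝ} (h0 : 0 < r) (h1 : r < 1) :
    HasDerivAt (Wr a) (2 * r + a * (2 * r * Cr r)) r := by
  have h8 : HasDerivAt (fun t : ℝ => t ^ 2) (2 * r) r := by
    have := (hasDerivAt_id r).pow 2
    refine this.congr_deriv ?_
    simp
  have := h8.sub ((hasDerivAt_Gr h0 h1).const_mul a)
  refine this.congr_deriv ?_
  ring

theorem Wr_mono {a : ℝ} (ha : 0 ≤ a) : StrictMonoOn (Wr a) (Set.Ioc (0 : ℝ) 1) := by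
  intro x hx y hy hxy
  have h1 := Gr_anti hx hy hxy.le
  have h2 : x ^ 2 < y ^ 2 := pow_lt_pow_left₀ hxy hx.1.le (by norm_num)
  unfold Wr
  nlinarith

theorem Wr_one (a : ℝ) : Wr a 1 = 1 := by unfold Wr; rw [Gr_one]; ring

theorem Wr_le {a r : ℝ} (ha : 0 ≤ a) (h0 : 0 < r) (h1 : r ≤ 1) : Wr a r ≤ r ^ 2 := by
  unfold Wr
  have := mul_nonneg ha (Gr_nonneg h0 h1)
  linarith

theorem continuousOn_Wr (a : ℝ) : ContinuousOn (Wr a) (Set.Ioi 0) := by
  unfold Wr
  exact ContinuousOn.sub (by fun_prop) (continuousOn_const.mul continuousOn_Gr)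

/-- Main barrier. -/
theorem barrier {n : ℕ} (F : Cube n → ℝ) (hF : ∀ x, F x = 1 ∨ F x = -1)
    (hp : ∃ x, F x = 1) (hm : ∃ x, F x = -1) (hmI : av F ∈ Set.Ioo (-1 : ℝ) 1)
    (hS : BellAt (av F)) {ρ : ℝ} (h0 : 0 < ρ) (h1 : ρ < 1)
    (hW : 0 ≤ Wr (2 * kap (av F) / P2 (av F)) ρ) :
    H (av F) - av (fun y => H (T ρ F y))
      ≤ kap (av F) + P2 (av F) * J (√(Wr (2 * kap (av F) / P2 (av F)) ρ)) := by
  set m := av F with hmdef
  set P := P2 m with hP
  set a := 2 * kap m / P with ha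
  have hPpos : 0 < P := P2_pos hmI
  have hk0 : 0 ≤ kap m := kap_nonneg (Set.Ioo_subset_Icc_self hmI)
  have ha0 : 0 ≤ a := by positivity
  have haP : 2 * kap m = a * P := by rw [ha]; field_simp
  by_contra hcon
  push Not at hcon
  set I : ℝ → ℝ := fun ρ => H m - av (fun y => H (T ρ F y)) with hI
  have hcon' : kap m + P * J (√(Wr a ρ)) < I ρ := hcon
  -- choose the shift
  have hcont : Filter.Tendsto (fun d : ℝ => kap m + P * J (√(Wr a (ρ + d))))
      (nhdsWithin 0 (Set.Ioi 0)) (nhds (kap m + P * J (√(Wr a ρ)))) := by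
    have h : ContinuousAt (fun r : ℝ => kap m + P * J (√(Wr a r))) ρ := by
      have hWc : ContinuousAt (Wr a) ρ := (continuousOn_Wr a).continuousAt (Ioi_mem_nhds h0)
      have hJ : ContinuousAt (fun r : ℝ => J (√(Wr a r))) ρ :=
        (continuous_J.comp Real.continuous_sqrt).continuousAt.comp hWc
      exact continuousAt_const.add (continuousAt_const.mul hJ)
    have h2 : Filter.Tendsto (fun d : ℝ => ρ + d) (nhds 0) (nhds ρ) := by
      have : Continuous (fun d : ℝ => ρ + d) := by fun_prop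
      have h3 := this.tendsto 0
      rwa [add_zero] at h3
    exact (h.tendsto.comp h2).mono_left nhdsWithin_le_nhds
  have hev : ∀ᶠ d in nhdsWithin (0 : ℝ) (Set.Ioi 0), kap m + P * J (√(Wr a (ρ + d))) < I ρ :=
    hcont.eventually_lt_const hcon'
  have hev2 : ∀ᶠ d in nhdsWithin (0 : ℝ) (Set.Ioi 0), d < 1 - ρ := by
    refine nhdsWithin_le_nhds ?_
    exact Iio_mem_nhds (by linarith)
  obtain ⟨d, ⟨hd1, hd2⟩, hd0⟩ := ((hev.and hev2).and self_mem_nhdsWithin).exists
  have hd0 : 0 < d := hd0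
  have hTm : ∀ r, 0 < r → r < 1 → ∀ y, T r F y ∈ Set.Ioo (-1 : ℝ) 1 :=
    fun r hr0 hr1 y => T_mem hr0.le hr1 F hF hp hm y
  have hId : ∀ r, 0 < r → r < 1 → HasDerivAt I (Phi (T r F) / r) r := by
    intro r hr0 hr1
    have := (hasDerivAt_avH hr0.ne' F (hTm r hr0 hr1)).const_sub (H m)
    refine this.congr_deriv ?_
    ring
  have hWpos : ∀ r, ρ ≤ r → r + d ≤ 1 → 0 < Wr a (r + d) := by
    intro r hr1 hr2
    have := Wr_mono ha0 (Set.mem_Ioc.2 ⟨h0, h1.le⟩) (Set.mem_Ioc.2 ⟨by linarith, hr2⟩)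
      (by linarith : ρ < r + d)
    linarith
  have hmain := image_le_of_deriv_right_lt_deriv_boundary' (a := ρ) (b := 1 - d)
    (f := fun r => kap m + P * J (√(Wr a (r + d))))
    (f' := fun r => P * (A (√(Wr a (r + d))) *
      ((2 * (r + d) + a * (2 * (r + d) * Cr (r + d))) / (2 * √(Wr a (r + d))))))
    (B := I) (B' := fun r => Phi (T r F) / r)
    (by
      intro r hr
      have hr0 : 0 < r + d := by linarith [hr.1]
      have hWc : ContinuousAt (fun r => Wr a (r + d)) r := by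
        have h3 : ContinuousAt (Wr a) (r + d) := (continuousOn_Wr a).continuousAt (Ioi_mem_nhds hr0)
        exact ContinuousAt.comp (f := fun r : ℝ => r + d) h3 (by fun_prop)
      have hJ : ContinuousAt (fun r : ℝ => J (√(Wr a (r + d)))) r :=
        (continuous_J.comp Real.continuous_sqrt).continuousAt.comp hWc
      exact (continuousAt_const.add (continuousAt_const.mul hJ)).continuousWithinAt)
    (by
      intro r hr
      have hr0 : 0 < r + d := by linarith [hr.1]
      have hr1 : r + d < 1 := by linarith [hr.2]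
      have h2 : HasDerivAt (fun r : ℝ => r + d) 1 r := (hasDerivAt_id r).add_const d
      have hWp := hWpos r hr.1 hr1.le
      have h3 := ((hasDerivAt_Wr (a := a) hr0 hr1).comp r h2)
      rw [mul_one] at h3
      have h4 := h3.sqrt hWp.ne'
      have hlt : √(Wr a (r + d)) < 1 := by
        rw [Real.sqrt_lt' one_pos]
        have := Wr_le ha0 hr0 hr1.le
        nlinarith
      have h5 := (hasDerivAt_J (t := √(Wr a (r + d)))
        ⟨by have := Real.sqrt_nonneg (Wr a (r + d)); linarith, hlt⟩).comp r h4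
      exact ((h5.const_mul P).const_add (kap m)).hasDerivWithinAt)
    hd1.le
    (by
      intro r hr
      exact (hId r (by linarith [hr.1]) (by linarith [hr.2])).continuousAt.continuousWithinAt)
    (by
      intro r hr
      exact (hId r (by linarith [hr.1]) (by linarith [hr.2])).hasDerivWithinAt)
    (by
      intro r hr hc
      have hr0 : 0 < r := by linarith [hr.1]
      have hr1 : r < 1 := by linarith [hr.2]
      have hrd0 : 0 < r + d := by linarith
      have hrd1 : r + d < 1 := by linarith [hr.2]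
      have hWp := hWpos r hr.1 hrd1.le
      set φ := √(Wr a (r + d)) with hφ
      have hφ0 : 0 < φ := Real.sqrt_pos.2 hWp
      have hφ2 : φ ^ 2 = Wr a (r + d) := Real.sq_sqrt hWp.le
      have hWle := Wr_le ha0 hrd0 hrd1.le
      have hφ1 : φ < 1 := by
        rw [hφ, Real.sqrt_lt' one_pos]; nlinarith
      have hs := (hS n (T r F) (hTm r hr0 hr1) (av_T r F)).2 φ ⟨hφ0, hφ1⟩ hc
      have hA := A_pos hφ0 hφ1
      have hAs := A_mul_sqrt hφ0.le hφ1
      have hss : √(1 - (r + d) ^ 2) ≤ √(1 - φ ^ 2) := Real.sqrt_le_sqrt (by rw [hφ2]; linarith)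
      have hG := Gr_add (r + d)
      -- key algebra
      have k1 : A φ * ((r + d) ^ 2 + a * ((r + d) ^ 2 * Cr (r + d))) ≤ a * φ + φ ^ 2 * A φ := by
        have k2 : A φ * √(1 - (r + d) ^ 2) ≤ φ :=
          (mul_le_mul_of_nonneg_left hss hA.le).trans hAs
        have k3 : a * (A φ * √(1 - (r + d) ^ 2)) ≤ a * φ := mul_le_mul_of_nonneg_left k2 ha0
        rw [← hG] at k3
        rw [hφ2]
        unfold Wr
        linarith [k3]
      have hC := Cr_nonneg hrd0 hrd1.le
      have hpos : 0 < A φ * ((r + d) ^ 2 + a * ((r + d) ^ 2 * Cr (r + d))) := by positivity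
      have k4 : P * (A φ * ((2 * (r + d) + a * (2 * (r + d) * Cr (r + d))) / (2 * φ)))
          = P * (A φ * ((r + d) ^ 2 + a * ((r + d) ^ 2 * Cr (r + d)))) / (φ * (r + d)) := by
        field_simp
      change P * (A φ * ((2 * (r + d) + a * (2 * (r + d) * Cr (r + d))) / (2 * φ)))
        < Phi (T r F) / r
      rw [k4]
      have k5 : 2 * kap m + P * (φ * A φ) = P * (a * φ + φ ^ 2 * A φ) / φ := by
        rw [haP]; field_simp
      have hs' : P * (a * φ + φ ^ 2 * A φ) / φ ≤ Phi (T r F) := by rw [← k5]; exact hs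
      have k6 : P * (A φ * ((r + d) ^ 2 + a * ((r + d) ^ 2 * Cr (r + d)))) / (φ * (r + d))
          ≤ (P * (a * φ + φ ^ 2 * A φ) / φ) / (r + d) := by
        rw [div_div]
        gcongr
      have k7 : 0 < P * (a * φ + φ ^ 2 * A φ) / φ := by positivity
      have k8 : (P * (a * φ + φ ^ 2 * A φ) / φ) / (r + d)
          < (P * (a * φ + φ ^ 2 * A φ) / φ) / r := by
        apply div_lt_div_of_pos_left k7 hr0
        linarith
      have k9 : (P * (a * φ + φ ^ 2 * A φ) / φ) / r ≤ Phi (T r F) / r := by gcongr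
      linarith)
  have hend : kap m + P * J (√(Wr a ((1 - d) + d))) ≤ I (1 - d) :=
    hmain (x := 1 - d) ⟨by linarith, le_rfl⟩
  rw [sub_add_cancel, Wr_one, Real.sqrt_one, J_one] at hend
  have hpos : 0 < av (fun y => H (T (1 - d) F y)) := by
    unfold av
    refine div_pos (Finset.sum_pos (fun y _ => H_pos (hTm (1 - d) (by linarith) (by linarith) y))
      Finset.univ_nonempty) (by positivity)
  change kap m + P * log 2 ≤ H m - av (fun y => H (T (1 - d) F y)) at hend
  have hkm : kap m = H m - log 2 * P := rfl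
  rw [hkm] at hend
  linarith

end CK.U
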