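import Vale.Agent.H9.CK.Unbal

/-!
# P322: the Courtade-Kumar inequality from the Bellman inequality `BellAt`
-/

open Real

namespace CK.U

theorem av_mem {n : ℕ} (F : Cube n → ℝ) (hF : ∀ x, F x = 1 ∨ F x = -1)
    (hp : ∃ x, F x = 1) (hm : ∃ x, F x = -1) : av F ∈ Set.Ioo (-1 : ℝ) 1 := by
  have h := T_mem (ρ := 0) le_rfl zero_lt_one F hF hp hm (Classical.choice inferInstance)
  rwa [T_zero] at h

/-- The ODE comparison for arbitrary mean. -/
theorem compare2 {n : ℕ} (F : Cube n → ℝ) (hF : ∀ x, F x = 1 ∨ F x = -1)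
    (hS : av F ∈ Set.Ioo (-1 : ℝ) 1 → BellAt (av F)) {ρ : ℝ} (h0 : 0 ≤ ρ) (h1 : ρ ≤ 1) :
    H (av F) - av (fun y => H (T ρ F y)) ≤ J ρ := by
  have htriv : ∀ ρ, 0 ≤ ρ → ρ ≤ 1 → 0 ≤ av (fun y => H (T ρ F y)) := by
    intro ρ h0 h1
    unfold av
    exact div_nonneg (Finset.sum_nonneg fun y _ => H_nonneg (T_mem_Icc h0 h1 F hF y))
      (by positivity)
  rcases eq_or_lt_of_le h1 with h1 | h1
  · subst h1
    rw [J_one]
    have := htriv 1 h0 le_rfl
    have := H_le (av F)
    linarith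
  rcases eq_or_lt_of_le h0 with h0 | h0
  · subst h0
    simp_rw [T_zero]
    rw [av_const, sub_self]
    exact J_nonneg 0
  by_cases hp : ∃ x, F x = 1
  swap
  · have hc : ∀ x, F x = -1 := fun x => (hF x).resolve_left fun h => hp ⟨x, h⟩
    have : av F = -1 := by rw [av_congr hc, av_const]
    rw [this, H_neg_one]
    have := htriv ρ h0.le h1.le
    have := J_nonneg ρ
    linarith
  by_cases hm : ∃ x, F x = -1
  swap
  · have hc : ∀ x, F x = 1 := fun x => (hF x).resolve_right fun h => hm ⟨x, h⟩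
    have : av F = 1 := by rw [av_congr hc, av_const]
    rw [this, H_one]
    have := htriv ρ h0.le h1.le
    have := J_nonneg ρ
    linarith
  have hmI := av_mem F hF hp hm
  have hS := hS hmI
  have hbar := fun {r : ℝ} (h0 : 0 < r) (h1 : r < 1) => barrier F hF hp hm hmI hS h0 h1
  set m := av F with hmdef
  set P := P2 m with hP
  set a := 2 * kap m / P with ha
  have hPpos : 0 < P := P2_pos hmI
  have hmc := Set.Ioo_subset_Icc_self hmI
  have hP1 : P ≤ 1 := by
    have := P2_le hmc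
    nlinarith [sq_nonneg m]
  have hk0 : 0 ≤ kap m := kap_nonneg hmc
  have ha0 : 0 ≤ a := by positivity
  have haP : 2 * kap m = a * P := by rw [ha]; field_simp
  -- comparison of `κ + P J(√W)` with `J`
  rcases eq_or_lt_of_le hk0 with hk | hk
  · -- `κ = 0`
    have ha' : a = 0 := by rw [ha, ← hk]; simp
    have hW : Wr a ρ = ρ ^ 2 := by unfold Wr; rw [ha']; ring
    have h := hbar h0 h1 (by rw [hW]; positivity)
    rw [hW, Real.sqrt_sq h0.le, ← hk, zero_add] at h
    refine h.trans ?_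
    have := J_nonneg ρ
    nlinarith
  · have hapos : 0 < a := by positivity
    obtain ⟨hr1, hGP⟩ := Gr_kap hmI hk
    set r0 := √(2 * kap m) with hr0def
    have hr0 : 0 < r0 := Real.sqrt_pos.2 (by linarith)
    have hr02 : r0 ^ 2 = 2 * kap m := Real.sq_sqrt (by linarith)
    have hW0 : Wr a r0 ≤ 0 := by
      unfold Wr
      have := mul_le_mul_of_nonneg_left hGP ha0
      rw [hr02, haP]; linarith
    obtain ⟨rt, hrt, hWt⟩ : ∃ rt ∈ Set.Icc r0 1, Wr a rt = 0 := by
      have hc : ContinuousOn (Wr a) (Set.Icc r0 1) :=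
        (continuousOn_Wr a).mono fun x hx => lt_of_lt_of_le hr0 hx.1
      have := intermediate_value_Icc hr1.le hc
      exact this ⟨hW0, by rw [Wr_one]; exact zero_le_one⟩
    have hrt0 : 0 < rt := lt_of_lt_of_le hr0 hrt.1
    have hrt1 : rt < 1 := by
      refine lt_of_le_of_ne hrt.2 ?_
      intro h; rw [h, Wr_one] at hWt; exact one_ne_zero hWt
    have hrtG : rt ^ 2 = a * Gr rt := by unfold Wr at hWt; linarith
    have hGt : P ≤ Gr rt := by
      have h2 : r0 ^ 2 ≤ rt ^ 2 := pow_le_pow_left₀ hr0.le hrt.1 2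
      rw [hr02, haP, hrtG] at h2
      exact le_of_mul_le_mul_left h2 hapos
    have hGtpos : 0 < Gr rt := lt_of_lt_of_le hPpos hGt
    rcases le_total rt ρ with hle | hle
    · -- `ρ ≥ r_t`
      have hWρ : 0 ≤ Wr a ρ := by
        have := (Wr_mono ha0).monotoneOn (Set.mem_Ioc.2 ⟨hrt0, hrt1.le⟩)
          (Set.mem_Ioc.2 ⟨h0, h1.le⟩) hle
        rwa [hWt] at this
      have h := hbar h0 h1 hWρ
      refine h.trans ?_
      set φ := √(Wr a ρ) with hφ
      have hφ0 : 0 ≤ φ := Real.sqrt_nonneg _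
      have hφ2 : φ ^ 2 = Wr a ρ := Real.sq_sqrt hWρ
      have hφρ : φ ≤ ρ := by
        rw [hφ]
        refine Real.sqrt_le_iff.2 ⟨h0.le, Wr_le ha0 h0 h1.le⟩
      have hφ1 : φ ≤ 1 := hφρ.trans h1.le
      have e1 := J_sub_mono' (Set.mem_Icc.2 ⟨hφ0, hφ1⟩) (Set.mem_Icc.2 ⟨h0.le, h1.le⟩) hφρ
      simp only at e1
      have e2 := J_ge2 hφ0 hφ1
      -- the ratio
      have e3 := Gr_ratio (Set.mem_Ioc.2 ⟨hrt0, hrt1.le⟩) (Set.mem_Ioc.2 ⟨h0, h1.le⟩) hle
      simp only at e3
      have e4 : a * P * ((1 - Gr rt) / rt ^ 2) ≤ 1 - P := by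
        rw [hrtG]
        have : a * P * ((1 - Gr rt) / (a * Gr rt)) = P * (1 - Gr rt) / Gr rt := by
          field_simp
        rw [this, div_le_iff₀ hGtpos]
        nlinarith
      have e5 : a * P * (1 - Gr ρ) ≤ (1 - P) * ρ ^ 2 := by
        have e6 : a * P * ((1 - Gr ρ) / ρ ^ 2) ≤ 1 - P :=
          (mul_le_mul_of_nonneg_left e3 (by positivity)).trans e4
        rw [← mul_div_assoc, div_le_iff₀ (by positivity)] at e6
        exact e6
      have e7 : (1 - P) * (φ ^ 2 / 2) ≤ (1 - P) * J φ :=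
        mul_le_mul_of_nonneg_left e2 (by linarith)
      rw [hφ2] at e1 e7
      unfold Wr at e1 e7
      nlinarith
    · -- `ρ ≤ r_t`
      set I : ℝ → ℝ := fun ρ => H m - av (fun y => H (T ρ F y)) with hI
      have hTm : ∀ r, 0 < r → r < 1 → ∀ y, T r F y ∈ Set.Ioo (-1 : ℝ) 1 :=
        fun r hr0 hr1 y => T_mem hr0.le hr1 F hF hp hm y
      have hId : ∀ r, 0 < r → r < 1 → HasDerivAt I (Phi (T r F) / r) r := by
        intro r hr0 hr1
        have := (hasDerivAt_avH hr0.ne' F (hTm r hr0 hr1)).const_sub (H m)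
        refine this.congr_deriv ?_
        ring
      have hmono : MonotoneOn (fun r => I r / r ^ 2) (Set.Ioo (0 : ℝ) 1) := by
        refine monoOn (f' := fun r => (Phi (T r F) / r * r ^ 2 - I r * (2 * r)) / (r ^ 2) ^ 2)
          (convex_Ioo _ _) ?_ ?_ ?_
        · intro x hx
          exact ((hId x hx.1 hx.2).continuousAt.div ((continuous_pow 2).continuousAt (x := x))
            (pow_pos hx.1 2).ne').continuousWithinAt
        · intro x hx
          rw [interior_Ioo] at hx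
          have h8 : HasDerivAt (fun t : ℝ => t ^ 2) (2 * x) x := by
            have := (hasDerivAt_id x).pow 2
            refine this.congr_deriv ?_
            simp
          exact (hId x hx.1 hx.2).div h8 (pow_pos hx.1 2).ne'
        · intro x hx
          rw [interior_Ioo] at hx
          have h3 := (hS n (T x F) (hTm x hx.1 hx.2) (av_T x F)).1
          have h3' : 2 * I x ≤ Phi (T x F) := h3
          have hx0 := hx.1
          have e : Phi (T x F) / x * x ^ 2 - I x * (2 * x) = x * (Phi (T x F) - 2 * I x) := by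
            field_simp
          rw [e]
          exact div_nonneg (mul_nonneg hx0.le (by linarith)) (by positivity)
      have h2 := hmono (Set.mem_Ioo.2 ⟨h0, h1⟩) (Set.mem_Ioo.2 ⟨hrt0, hrt1⟩) hle
      have h3 := hbar hrt0 hrt1 (by rw [hWt])
      rw [hWt, Real.sqrt_zero, J_zero, mul_zero, add_zero] at h3
      have h3' : I rt ≤ kap m := h3
      simp only at h2
      have h4 : I rt / rt ^ 2 ≤ 1 / 2 := by
        rw [div_le_iff₀ (by positivity), hrtG]
        have := mul_le_mul_of_nonneg_left hGt ha0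
        linarith
      have h5 : I ρ / ρ ^ 2 ≤ 1 / 2 := h2.trans h4
      rw [div_le_iff₀ (by positivity)] at h5
      have h6 := J_ge2 h0.le h1.le
      change I ρ ≤ J ρ
      linarith

/-- From nats to the literal statement. -/
theorem ck_of_nats {n : ℕ} (f : (Fin n → ℤˣ) → ℤˣ) (ε : ℝ) (h0 : 0 ≤ ε) (h1 : ε ≤ 1 / 2)
    (h : H (av (fun x => rv (f (eC n x)))) -
      av (fun y => H (T (1 - 2 * ε) (fun x => rv (f (eC n x))) y)) ≤ J (1 - 2 * ε)) :
    mutualInfo (jointLaw f ε) ≤ 1 - h₂ ε := by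
  have hlog2 : 0 < log 2 := Real.log_pos (by norm_num)
  rw [← mi_eq f ε h0 h1] at h
  have hJ : J (1 - 2 * ε) = (1 - h₂ ε) * log 2 := by
    unfold J H h₂ logb
    have e : (1 + (1 - 2 * ε)) / 2 = 1 - ε := by ring
    rw [e, binEntropy_one_sub, binEntropy_eq_negMulLog_add_negMulLog_one_sub, negMulLog, negMulLog]
    field_simp
    ring
  rw [hJ] at h
  exact le_of_mul_le_mul_right h hlog2

/-- The Courtade-Kumar inequality, given the Bellman inequality at all means. -/
theorem ck_of_bell (hS : ∀ m ∈ Set.Ioo (-1 : ℝ) 1, BellAt m) {n : ℕ} (f : (Fin n → ℤˣ) → ℤˣ)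
    (ε : ℝ) (h0 : 0 ≤ ε) (h1 : ε ≤ 1 / 2) :
    mutualInfo (jointLaw f ε) ≤ 1 - h₂ ε :=
  ck_of_nats f ε h0 h1 (compare2 _ (fun x => rv_cases _) (fun h => hS _ h) (by linarith)
    (by linarith))

/-- `BellAt` from a Bellman function `B` satisfying the main inequality, such that
`B m x ≥ 2 (H m - x)` and `B m x ≥ 2 κ + P θ A(θ)` if `H m - x = κ + P J(θ)`. -/
theorem bellAt_of_bellman (B : ℝ → ℝ → ℝ) (h0 : ∀ m ∈ Set.Ioo (-1 : ℝ) 1, B m (H m) ≤ 0)
    (hMI : MI B) (hB1 : ∀ m ∈ Set.Ioo (-1 : ℝ) 1, ∀ x, 0 < x → 2 * (H m - x) ≤ B m x)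
    (hB2 : ∀ m ∈ Set.Ioo (-1 : ℝ) 1, ∀ θ ∈ Set.Ioo (0 : ℝ) 1,
      2 * kap m + P2 m * (θ * A θ) ≤ B m (P2 m * H θ)) :
    ∀ m ∈ Set.Ioo (-1 : ℝ) 1, BellAt m := by
  intro m hm n g hg hgm
  have h1 := tens B h0 hMI n g hg
  rw [hgm] at h1
  constructor
  · refine le_trans (hB1 m hm _ ?_) h1
    unfold av
    exact div_pos (Finset.sum_pos (fun y _ => H_pos (hg y)) Finset.univ_nonempty) (by positivity)
  · intro θ hθ hk
    have e : av (fun x => H (g x)) = P2 m * H θ := by
      have e2 : kap m = H m - log 2 * P2 m := rfl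
      unfold J at hk
      rw [e2] at hk
      linarith
    rw [e] at h1
    exact (hB2 m hm θ hθ).trans h1

end CK.U
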